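import Vale.Agent.Lib.P343.Cross

/-!
# The hard language and the exponential lower bound
-/

namespace Vale.Agent.P343

/-- The alphabet: `U X`, `V Y` for subsets `X`, `Y` of `Fin n`, and a separator. -/
inductive Letter (n : ℕ) : Type where
  | U (X : Finset (Fin n)) : Letter n
  | V (Y : Finset (Fin n)) : Letter n
  | sep : Letter n

/-- Letters as a sum type. -/
def Letter.equiv (n : ℕ) : Letter n ≃ (Finset (Fin n) ⊕ Finset (Fin n)) ⊕ Unit where
  toFun
    | .U X => .inl (.inl X)
    | .V Y => .inl (.inr Y)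
    | .sep => .inr ()
  invFun
    | .inl (.inl X) => .U X
    | .inl (.inr Y) => .V Y
    | .inr () => .sep
  left_inv a := by cases a <;> rfl
  right_inv a := by rcases a with (_ | _) | _ <;> rfl

instance (n : ℕ) : Fintype (Letter n) := Fintype.ofEquiv _ (Letter.equiv n).symm

variable {n : ℕ}

/-- A block `U X₁ V Y₁ ⋯ U Xₖ V Yₖ` is live if `Xᵢ ∩ Yᵢ ≠ ∅` for all `i`. -/
inductive Live : List (Letter n) → Prop where
  | nil : Live []
  | cons {X Y : Finset (Fin n)} {w : List (Letter n)} (i : Fin n) (hX : i ∈ X) (hY : i ∈ Y)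
      (hw : Live w) : Live (Letter.U X :: Letter.V Y :: w)

theorem Live.append {x y : List (Letter n)} (hx : Live x) (hy : Live y) : Live (x ++ y) := by
  induction hx with
  | nil => exact hy
  | cons i hX hY _ ih => exact Live.cons i hX hY ih

theorem Live.of_append {x y : List (Letter n)} (hx : Live x) (h : Live (x ++ y)) : Live y := by
  induction hx with
  | nil => exact h
  | cons i hX hY _ ih =>
    cases h with
    | cons _ _ _ h' => exact ih h'

theorem Live.no_sep {x : List (Letter n)} (hx : Live x) : Letter.sep ∉ x := by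
  induction hx with
  | nil => simp
  | cons i hX hY _ ih => simp [ih]

theorem not_live_pair (X : Finset (Fin n)) (w : List (Letter n)) :
    ¬ Live (Letter.U X :: Letter.V Xᶜ :: w) := by
  intro h
  cases h with
  | cons i hX hY _ => exact (Finset.mem_compl.mp hY) hX

/-- The words that have a live block between two separators. -/
def Hard (n : ℕ) : Set (List (Letter n)) :=
  {w | ∃ p z q, Live z ∧ w = p ++ Letter.sep :: (z ++ Letter.sep :: q)}

/-- The homomorphism `x ↦ (al x, be x)`. -/
noncomputable def sig {A Q : Type} (M : TwoNFA A Q) :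
    FreeMonoid A →* BRel Q × (BRel Q)ᵐᵒᵖ where
  toFun x := (M.al x.toList, MulOpposite.op (M.be x.toList))
  map_one' := by
    ext1
    · rfl
    · rfl
  map_mul' x y := by
    ext1
    · simp [TwoNFA.al_append]
    · simp [TwoNFA.be_append]

theorem sig_apply {A Q : Type} (M : TwoNFA A Q) (x : List A) :
    sig M (FreeMonoid.ofList x) = (M.al x, MulOpposite.op (M.be x)) := rfl

/-- The submonoid of live words. -/
def liveSub (n : ℕ) : Submonoid (FreeMonoid (Letter n)) where
  carrier := {x | Live x.toList}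
  one_mem' := Live.nil
  mul_mem' := by
    intro x y hx hy
    exact Live.append hx hy

/-- The core of the lower bound: if straight crossings separate dead words from live words,
then the number of states is exponential. -/
theorem core {Q : Type} [Fintype Q] (M : TwoNFA (Letter n) Q)
    (hsep : ∀ x z : List (Letter n), x ≠ [] → Letter.sep ∉ x → ¬ Live x → Live z →
      (∀ p q, M.al x p q → M.al z p q) → (∀ p q, M.be x p q → M.be z p q) → False) :
    2 ^ n ≤ 2 * Fintype.card Q ^ 6 := by
  classical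
  have : Finite (BRel Q)ᵐᵒᵖ := Finite.of_equiv (BRel Q) MulOpposite.opEquiv
  obtain ⟨e, heS, hee, hker⟩ := exists_kernel_idem ((liveSub n).map (sig M))
  obtain ⟨y, hy, rfl⟩ := heS
  obtain ⟨y, rfl⟩ := FreeMonoid.ofList.surjective y
  have hyl : Live y := hy
  rw [sig_apply] at hee hker
  have hE : M.al y * M.al y = M.al y := congrArg Prod.fst hee
  have hE' : M.be y * M.be y = M.be y := by
    have := congrArg Prod.snd hee
    exact MulOpposite.op_injective this
  -- powers of live words
  have hpowz : ∀ z, Live z → ∃ t, 1 ≤ t ∧ (M.al (y ++ z ++ y)) ^ t = M.al y ∧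
      (M.be (y ++ z ++ y)) ^ t = M.be y := by
    intro z hz
    obtain ⟨t, ht, h⟩ := hker (sig M (FreeMonoid.ofList z)) ⟨_, hz, rfl⟩
    rw [sig_apply] at h
    refine ⟨t, ht, ?_, ?_⟩
    · have := congrArg Prod.fst h
      simpa [TwoNFA.al_append, mul_assoc] using this
    · have := congrArg (fun v => MulOpposite.unop (Prod.snd v)) h
      simpa [TwoNFA.be_append, mul_assoc] using this
  -- the two closed sets of relations
  let HA : Set (BRel Q) := {G | ∃ z, Live z ∧ G = M.al (y ++ z ++ y)}
  let HB : Set (BRel Q) := {G | ∃ z, Live z ∧ G = M.be (y ++ z ++ y)}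
  have hHA : ∀ G ∈ HA, ∀ G' ∈ HA, G * G' ∈ HA := by
    rintro _ ⟨z, hz, rfl⟩ _ ⟨z', hz', rfl⟩
    refine ⟨z ++ y ++ y ++ z', ((hz.append hyl).append hyl).append hz', ?_⟩
    rw [← TwoNFA.al_append]
    simp
  have hHB : ∀ G ∈ HB, ∀ G' ∈ HB, G * G' ∈ HB := by
    rintro _ ⟨z, hz, rfl⟩ _ ⟨z', hz', rfl⟩
    refine ⟨z' ++ y ++ y ++ z, ((hz'.append hyl).append hyl).append hz, ?_⟩
    rw [← TwoNFA.be_append]
    simp
  have hpA : ∀ G ∈ HA, ∃ t, 1 ≤ t ∧ G ^ t = M.al y := by
    rintro _ ⟨z, hz, rfl⟩
    obtain ⟨t, ht, h, _⟩ := hpowz z hz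
    exact ⟨t, ht, h⟩
  have hpB : ∀ G ∈ HB, ∃ t, 1 ≤ t ∧ G ^ t = M.be y := by
    rintro _ ⟨z, hz, rfl⟩
    obtain ⟨t, ht, _, h⟩ := hpowz z hz
    exact ⟨t, ht, h⟩
  -- the certificate
  let T := Bool × (Q × Q × Q) × (Q × Q × Q)
  let uu : Finset (Fin n) → List (Letter n) := fun X => [Letter.U X]
  let vv : Finset (Fin n) → List (Letter n) := fun X => [Letter.V Xᶜ]
  let Φ : Finset (Fin n) → T → Prop := fun X d =>
    match d with
    | (true, (a, r, b), (a', r', b')) =>
      M.al (y ++ uu X) a r ∧ M.al (vv X ++ y) r b ∧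
      M.al (y ++ uu X) a' r' ∧ M.al (vv X ++ y) r' b' ∧
      ∀ z, Live z → ¬ (M.al (y ++ z ++ y) a b ∧ M.al (y ++ z ++ y) a' b')
    | (false, (a, r, b), (a', r', b')) =>
      M.be (vv X ++ y) a r ∧ M.be (y ++ uu X) r b ∧
      M.be (vv X ++ y) a' r' ∧ M.be (y ++ uu X) r' b' ∧
      ∀ z, Live z → ¬ (M.be (y ++ z ++ y) a b ∧ M.be (y ++ z ++ y) a' b')
  -- existence of certificates
  have hex : ∀ X, ∃ d, Φ X d := by
    intro X
    by_contra hno
    push Not at hno
    set x := uu X ++ vv X with hxdef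
    have hpairA : ∀ a b a' b', M.al (y ++ x ++ y) a b → M.al (y ++ x ++ y) a' b' →
        ∃ G ∈ HA, G a b ∧ G a' b' := by
      intro a b a' b' h h'
      have hsplit : y ++ x ++ y = (y ++ uu X) ++ (vv X ++ y) := by simp [hxdef]
      rw [hsplit, TwoNFA.al_append] at h h'
      obtain ⟨r, h1, h2⟩ := h
      obtain ⟨r', h1', h2'⟩ := h'
      by_contra hc
      push Not at hc
      refine hno (true, (a, r, b), (a', r', b')) ⟨h1, h2, h1', h2', ?_⟩
      rintro z hz ⟨g1, g2⟩
      exact hc _ ⟨z, hz, rfl⟩ g1 g2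
    have hpairB : ∀ a b a' b', M.be (y ++ x ++ y) a b → M.be (y ++ x ++ y) a' b' →
        ∃ G ∈ HB, G a b ∧ G a' b' := by
      intro a b a' b' h h'
      have hsplit : y ++ x ++ y = (y ++ uu X) ++ (vv X ++ y) := by simp [hxdef]
      rw [hsplit, TwoNFA.be_append] at h h'
      obtain ⟨r, h1, h2⟩ := h
      obtain ⟨r', h1', h2'⟩ := h'
      by_contra hc
      push Not at hc
      refine hno (false, (a, r, b), (a', r', b')) ⟨h1, h2, h1', h2', ?_⟩
      rintro z hz ⟨g1, g2⟩
      exact hc _ ⟨z, hz, rfl⟩ g1 g2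
    obtain ⟨t, ht, hidem⟩ := exists_pow_idem (sig M (FreeMonoid.ofList (y ++ x ++ y)))
    have hA : (M.al (y ++ x ++ y)) ^ t * (M.al (y ++ x ++ y)) ^ t =
        (M.al (y ++ x ++ y)) ^ t := by
      rw [sig_apply] at hidem
      exact congrArg Prod.fst hidem
    have hB : (M.be (y ++ x ++ y)) ^ t * (M.be (y ++ x ++ y)) ^ t =
        (M.be (y ++ x ++ y)) ^ t := by
      rw [sig_apply] at hidem
      have := congrArg (fun v => MulOpposite.unop (Prod.snd v)) hidem
      simpa using this
    -- the dead word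
    let D : ℕ → List (Letter n) := fun k => (List.replicate k (y ++ x ++ y)).flatten
    have hDA : ∀ k, M.al (D k) = (M.al (y ++ x ++ y)) ^ k := by
      intro k
      induction k with
      | zero => rfl
      | succ k ih =>
        have : D (k + 1) = (y ++ x ++ y) ++ D k := by
          simp [D, List.replicate_succ]
        rw [this, TwoNFA.al_append, ih, pow_succ']
    have hDB : ∀ k, M.be (D k) = (M.be (y ++ x ++ y)) ^ k := by
      intro k
      induction k with
      | zero => rfl
      | succ k ih =>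
        have : D (k + 1) = (y ++ x ++ y) ++ D k := by
          simp [D, List.replicate_succ]
        rw [this, TwoNFA.be_append, ih, pow_succ]
    obtain ⟨k, rfl⟩ : ∃ k, t = k + 1 := ⟨t - 1, by omega⟩
    have hDk : D (k + 1) = y ++ (Letter.U X :: Letter.V Xᶜ :: (y ++ D k)) := by
      simp [D, List.replicate_succ, hxdef, uu, vv]
    have hdead : ¬ Live (D (k + 1)) := by
      rw [hDk]
      intro h
      exact not_live_pair X _ (Live.of_append hyl h)
    have hnosep : ∀ k, Letter.sep ∉ D k := by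
      intro k hk
      simp only [D, List.mem_flatten, List.mem_replicate] at hk
      obtain ⟨l, ⟨_, rfl⟩, hl⟩ := hk
      simp only [List.mem_append, hxdef, uu, vv] at hl
      rcases hl with (h | h | h) | h
      · exact hyl.no_sep h
      · simp at h
      · simp at h
      · exact hyl.no_sep h
    refine hsep (D (k + 1)) y ?_ (hnosep _) hdead hyl ?_ ?_
    · rw [hDk]; simp
    · intro p q h
      rw [hDA] at h
      exact BRel.pow_le_of_pairs hHA hE hpA hpairA ht hA h
    · intro p q h
      rw [hDB] at h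
      exact BRel.pow_le_of_pairs hHB hE' hpB hpairB ht hB h
  -- certificates determine the set
  have hinj : ∀ X X' d, Φ X d → Φ X' d → ¬ ∃ i, i ∈ X ∧ i ∉ X' := by
    rintro X X' ⟨b0, ⟨a, r, b⟩, ⟨a', r', b'⟩⟩ h h' ⟨i, hi, hi'⟩
    have hlive : Live (uu X ++ vv X') :=
      Live.cons i hi (Finset.mem_compl.mpr hi') Live.nil
    have hsplit : y ++ (uu X ++ vv X') ++ y = (y ++ uu X) ++ (vv X' ++ y) := by simp
    cases b0 with
    | true =>
      obtain ⟨h1, -, h3, -, -⟩ := h
      obtain ⟨-, h2', -, h4', h5'⟩ := h'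
      refine h5' _ hlive ?_
      rw [hsplit, TwoNFA.al_append]
      exact ⟨⟨r, h1, h2'⟩, ⟨r', h3, h4'⟩⟩
    | false =>
      obtain ⟨-, h2, -, h4, -⟩ := h
      obtain ⟨h1', -, h3', -, h5'⟩ := h'
      refine h5' _ hlive ?_
      rw [hsplit, TwoNFA.be_append]
      exact ⟨⟨r, h1', h2⟩, ⟨r', h3', h4⟩⟩
  choose f hf using hex
  have hfinj : Function.Injective f := by
    intro X X' he
    have h1 := hf X
    have h2 := hf X'
    rw [← he] at h2
    ext i
    constructor
    · intro hi
      by_contra hi'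
      exact hinj X X' _ h1 h2 ⟨i, hi, hi'⟩
    · intro hi
      by_contra hi'
      exact hinj X' X _ h2 h1 ⟨i, hi, hi'⟩
  have hcard := Fintype.card_le_of_injective f hfinj
  simp only [Fintype.card_finset, Fintype.card_fin, T, Fintype.card_prod, Fintype.card_bool]
    at hcard
  calc 2 ^ n ≤ _ := hcard
    _ = 2 * Fintype.card Q ^ 6 := by ring

end Vale.Agent.P343
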