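import Mathlib

/-!
# Finite monoids of relations
-/

namespace Vale.Agent.P343

/-- Every element of a finite monoid has an idempotent positive power. -/
theorem exists_pow_idem {P : Type*} [Monoid P] [Finite P] (g : P) :
    ∃ t, 1 ≤ t ∧ g ^ t * g ^ t = g ^ t := by
  obtain ⟨i, j, hij, hne⟩ : ∃ i j : ℕ, i < j ∧ g ^ i = g ^ j := by
    obtain ⟨i, j, hne, he⟩ := Finite.exists_ne_map_eq_of_infinite (fun k : ℕ => g ^ k)
    rcases lt_or_gt_of_ne hne with h | h
    · exact ⟨i, j, h, he⟩
    · exact ⟨j, i, h, he.symm⟩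
  -- `g ^ (i + s) = g ^ (i + s + p * k)` with `p = j - i`
  obtain ⟨p, rfl⟩ : ∃ p, j = i + p := ⟨j - i, by omega⟩
  have hp : 1 ≤ p := by omega
  have key : ∀ k s, g ^ (i + s + p * k) = g ^ (i + s) := by
    intro k
    induction k with
    | zero => intro s; simp
    | succ k ih =>
      intro s
      have h1 : i + s + p * (k + 1) = (i + p) + (s + p * k) := by ring
      rw [h1, pow_add, ← hne, ← pow_add]
      have h2 : i + (s + p * k) = i + s + p * k := by ring
      rw [h2, ih]
  refine ⟨p * (i + 1), by nlinarith, ?_⟩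
  rw [← pow_add]
  have h3 : p * (i + 1) = i + (p * (i + 1) - i) := by
    have : i ≤ p * (i + 1) := by nlinarith
    omega
  have := key (i + 1) (p * (i + 1) - i)
  rw [← h3] at this
  exact this

/-- A kernel lemma: a submonoid `S` of a finite monoid contains an idempotent `e` such that
for every `s ∈ S`, some positive power of `e * s * e` equals `e`. -/
theorem exists_kernel_idem {P : Type*} [Monoid P] [Finite P] (S : Submonoid P) :
    ∃ e ∈ S, e * e = e ∧ ∀ s ∈ S, ∃ t, 1 ≤ t ∧ (e * s * e) ^ t = e := by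
  classical
  let I : P → Set P := fun e => {x | ∃ s ∈ S, x = e * s * e}
  have hne : {e : P | e ∈ S ∧ e * e = e}.Nonempty := ⟨1, S.one_mem, by simp⟩
  obtain ⟨e, ⟨heS, he⟩, hmin⟩ := Set.exists_min_image {e : P | e ∈ S ∧ e * e = e}
    (fun e => (I e).ncard) (Set.toFinite _) hne
  refine ⟨e, heS, he, fun s hs => ?_⟩
  obtain ⟨t, ht, hidem⟩ := exists_pow_idem (e * s * e)
  refine ⟨t, ht, ?_⟩
  set g := e * s * e with hg
  set f := g ^ t with hf
  have hgS : g ∈ S := S.mul_mem (S.mul_mem heS hs) heS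
  have hfS : f ∈ S := S.pow_mem hgS t
  have heg : e * g = g := by rw [hg, ← mul_assoc, ← mul_assoc, he]
  have hge : g * e = g := by rw [hg, mul_assoc, he]
  obtain ⟨k, rfl⟩ : ∃ k, t = k + 1 := ⟨t - 1, by omega⟩
  have hef : e * f = f := by rw [hf, pow_succ', ← mul_assoc, heg]
  have hfe : f * e = f := by rw [hf, pow_succ, mul_assoc, hge]
  have hsub : I f ⊆ I e := by
    rintro x ⟨s', hs', rfl⟩
    refine ⟨f * s' * f, S.mul_mem (S.mul_mem hfS hs') hfS, ?_⟩
    calc f * s' * f = (e * f) * s' * (f * e) := by rw [hef, hfe]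
      _ = e * (f * s' * f) * e := by simp only [mul_assoc]
  have heq : I f = I e :=
    Set.eq_of_subset_of_ncard_le hsub (hmin f ⟨hfS, hidem⟩) (Set.toFinite _)
  have heI : e ∈ I e := ⟨1, S.one_mem, by rw [mul_one, he]⟩
  rw [← heq] at heI
  obtain ⟨s', _, hes'⟩ := heI
  calc f = f * e := hfe.symm
    _ = f * (f * s' * f) := by rw [← hes']
    _ = (f * f) * s' * f := by simp only [mul_assoc]
    _ = f * s' * f := by rw [hidem]
    _ = e := hes'.symm

/-- Binary relations on `Q`, as a monoid under composition (first `R`, then `S`). -/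
def BRel (Q : Type) : Type := Q → Q → Prop

namespace BRel

variable {Q : Type}

instance : Monoid (BRel Q) where
  mul R S := fun p q => ∃ r, R p r ∧ S r q
  one := fun p q => p = q
  mul_assoc R S T := by
    funext p q
    apply propext
    constructor
    · rintro ⟨r, ⟨s, h1, h2⟩, h3⟩
      exact ⟨s, h1, r, h2, h3⟩
    · rintro ⟨s, h1, r, h2, h3⟩
      exact ⟨r, ⟨s, h1, h2⟩, h3⟩
  one_mul R := by
    funext p q
    apply propext
    constructor
    · rintro ⟨r, rfl, h⟩; exact h
    · intro h; exact ⟨p, rfl, h⟩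
  mul_one R := by
    funext p q
    apply propext
    constructor
    · rintro ⟨r, h, rfl⟩; exact h
    · intro h; exact ⟨q, h, rfl⟩

instance [Finite Q] : Finite (BRel Q) := inferInstanceAs (Finite (Q → Q → Prop))

theorem mul_apply (R S : BRel Q) (p q : Q) : (R * S) p q ↔ ∃ r, R p r ∧ S r q := Iff.rfl

theorem one_apply (p q : Q) : (1 : BRel Q) p q ↔ p = q := Iff.rfl

/-- If `R c c` then `(R ^ t) c c`. -/
theorem pow_loop {R : BRel Q} {c : Q} (h : R c c) (t : ℕ) : (R ^ t) c c := by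
  induction t with
  | zero => rw [pow_zero]; rfl
  | succ t ih => rw [pow_succ]; exact ⟨c, ih, h⟩

/-- An edge `a → b` of an idempotent relation on a finite set passes through a loop. -/
theorem exists_loop_of_idem [Finite Q] {F : BRel Q} (hF : F * F = F) {a b : Q} (hab : F a b) :
    ∃ c, F a c ∧ F c c ∧ F c b := by
  classical
  have hdense : ∀ x y, F x y → ∃ r, F x r ∧ F r y := by
    intro x y h
    rw [← hF] at h
    exact h
  have htrans : ∀ x y z, F x y → F y z → F x z := by
    intro x y z h1 h2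
    rw [← hF]
    exact ⟨y, h1, h2⟩
  have step : ∀ c : {c // F c b}, ∃ c' : {c // F c b}, F c.1 c'.1 := by
    rintro ⟨c, hc⟩
    obtain ⟨r, h1, h2⟩ := hdense c b hc
    exact ⟨⟨r, h2⟩, h1⟩
  choose nxt hnxt using step
  let s : ℕ → {c // F c b} := fun k => nxt^[k] ⟨a, hab⟩
  have hs : ∀ k, F (s k).1 (s (k + 1)).1 := by
    intro k
    have : s (k + 1) = nxt (s k) := by
      simp only [s, Function.iterate_succ', Function.comp_apply]
    rw [this]
    exact hnxt _
  have hlt : ∀ i k, F (s i).1 (s (i + k + 1)).1 := by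
    intro i k
    induction k with
    | zero => exact hs i
    | succ k ih => exact htrans _ _ _ ih (hs (i + k + 1))
  obtain ⟨i, j, hne, he⟩ := Finite.exists_ne_map_eq_of_infinite (fun k : ℕ => s (k + 1))
  wlog hij : i < j generalizing i j with H
  · exact H j i hne.symm he.symm (by omega)
  obtain ⟨k, rfl⟩ : ∃ k, j = i + k + 1 := ⟨j - i - 1, by omega⟩
  have h1 : F (s (i + 1)).1 (s (i + 1)).1 := by
    have := hlt (i + 1) k
    have e2 : i + 1 + k + 1 = i + k + 1 + 1 := by ring
    rw [e2] at this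
    have he' : s (i + 1) = s (i + k + 1 + 1) := he
    rw [← he'] at this
    exact this
  have h0 : F a (s (i + 1)).1 := by
    have := hlt 0 i
    simpa [s] using this
  exact ⟨(s (i + 1)).1, h0, h1, (s (i + 1)).2⟩

/-- Two walks of the same positive length can be followed simultaneously inside a set of
relations closed under products, if this is the case for edges. -/
theorem exists_joint {D : BRel Q} {H : Set (BRel Q)}
    (hmul : ∀ G ∈ H, ∀ G' ∈ H, G * G' ∈ H)
    (hpair : ∀ a b a' b', D a b → D a' b' → ∃ G ∈ H, G a b ∧ G a' b') (l : ℕ) :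
    ∀ a b a' b', (D ^ (l + 1)) a b → (D ^ (l + 1)) a' b' → ∃ G ∈ H, G a b ∧ G a' b' := by
  induction l with
  | zero => simpa using hpair
  | succ l ih =>
    intro a b a' b' h h'
    rw [pow_succ] at h h'
    obtain ⟨r, h1, h2⟩ := h
    obtain ⟨r', h1', h2'⟩ := h'
    obtain ⟨G, hG, hG1, hG2⟩ := ih _ _ _ _ h1 h1'
    obtain ⟨G', hG', hG1', hG2'⟩ := hpair _ _ _ _ h2 h2'
    exact ⟨G * G', hmul _ hG _ hG', ⟨r, hG1, hG1'⟩, ⟨r', hG2, hG2'⟩⟩

/-- The key lemma. Let `H` be closed under products, with an idempotent `E` such that every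
`G ∈ H` has a positive power equal to `E`. If any two edges of `D` lie in a common `G ∈ H`, then
every idempotent positive power of `D` is contained in `E`. -/
theorem pow_le_of_pairs [Finite Q] {D E : BRel Q} {H : Set (BRel Q)}
    (hmul : ∀ G ∈ H, ∀ G' ∈ H, G * G' ∈ H) (hE : E * E = E)
    (hpow : ∀ G ∈ H, ∃ t, 1 ≤ t ∧ G ^ t = E)
    (hpair : ∀ a b a' b', D a b → D a' b' → ∃ G ∈ H, G a b ∧ G a' b')
    {t : ℕ} (ht : 1 ≤ t) (hidem : D ^ t * D ^ t = D ^ t) {a b : Q} (hab : (D ^ t) a b) :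
    E a b := by
  obtain ⟨c, hac, hcc, hcb⟩ := exists_loop_of_idem hidem hab
  obtain ⟨l, rfl⟩ : ∃ l, t = l + 1 := ⟨t - 1, by omega⟩
  have h1 : E a c := by
    obtain ⟨G, hG, hG1, hG2⟩ := exists_joint hmul hpair l _ _ _ _ hac hcc
    obtain ⟨s, hs, hGs⟩ := hpow G hG
    obtain ⟨k, rfl⟩ : ∃ k, s = k + 1 := ⟨s - 1, by omega⟩
    rw [← hGs, pow_succ']
    exact ⟨c, hG1, pow_loop hG2 k⟩
  have h2 : E c b := by
    obtain ⟨G, hG, hG1, hG2⟩ := exists_joint hmul hpair l _ _ _ _ hcb hcc
    obtain ⟨s, hs, hGs⟩ := hpow G hG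
    obtain ⟨k, rfl⟩ : ∃ k, s = k + 1 := ⟨s - 1, by omega⟩
    rw [← hGs, pow_succ]
    exact ⟨c, pow_loop hG2 k, hG1⟩
  rw [← hE]
  exact ⟨c, h1, h2⟩

end BRel

end Vale.Agent.P343
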