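import Vale.Agent.Lib.P343.Defs
import Vale.Agent.Lib.P343.Rel

/-!
# Straight crossings and the replacement theorem
-/

namespace Vale.Agent.P343

namespace TwoNFA

variable {A Q : Type} (M : TwoNFA A Q)

/-- Stationary moves on a letter. -/
def stays (a : A) : Q → Q → Prop :=
  Relation.ReflTransGen (fun x y => (y, 0) ∈ M.trans x (TapeSymbol.letter a))

/-- Crossing a letter to the right. -/
def crossR (a : A) : BRel Q :=
  fun p q => ∃ p', M.stays a p p' ∧ (q, 1) ∈ M.trans p' (TapeSymbol.letter a)

/-- Crossing a letter to the left. -/
def crossL (a : A) : BRel Q :=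
  fun p q => ∃ p', M.stays a p p' ∧ (q, -1) ∈ M.trans p' (TapeSymbol.letter a)

/-- Crossing a word straight to the right. -/
def al (x : List A) : BRel Q := (x.map M.crossR).prod

/-- Crossing a word straight to the left. -/
def be (x : List A) : BRel Q := (x.reverse.map M.crossL).prod

theorem al_nil : M.al [] = 1 := rfl

theorem be_nil : M.be [] = 1 := rfl

theorem al_append (x y : List A) : M.al (x ++ y) = M.al x * M.al y := by
  simp [al]

theorem be_append (x y : List A) : M.be (x ++ y) = M.be y * M.be x := by
  simp [be]

theorem al_singleton (a : A) : M.al [a] = M.crossR a := by simp [al]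

theorem be_singleton (a : A) : M.be [a] = M.crossL a := by simp [be]

theorem al_cons (a : A) (x : List A) : M.al (a :: x) = M.crossR a * M.al x := by
  simp [al]

theorem be_cons (a : A) (x : List A) : M.be (a :: x) = M.be x * M.crossL a := by
  simp [be]

/-- One step of `M` on the tape `⊢ w ⊣`. -/
def Stp (w : List A) (c c' : Q × ℕ) : Prop :=
  ∃ d : SignType, (c'.1, d) ∈ M.trans c.1 (cell w c.2) ∧ (c'.2 : ℤ) = (c.2 : ℤ) + (d : ℤ)

/-- Reachability on the tape `⊢ w ⊣`. -/
def Reach (w : List A) : Q × ℕ → Q × ℕ → Prop := Relation.ReflTransGen (M.Stp w)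

theorem Computation.reach {M : TwoNFA A Q} {w : List A} {c c' : Q × ℕ} {ds : List SignType}
    (h : M.Computation w c ds c') : M.Reach w c c' := by
  induction h with
  | refl c => exact Relation.ReflTransGen.refl
  | step h1 h2 _ ih => exact Relation.ReflTransGen.head ⟨_, h1, h2⟩ ih

theorem Reach.exists_computation {M : TwoNFA A Q} {w : List A} {c c' : Q × ℕ}
    (h : M.Reach w c c') : ∃ ds, M.Computation w c ds c' := by
  induction h using Relation.ReflTransGen.head_induction_on with
  | refl => exact ⟨[], Computation.refl _⟩
  | head h1 _ ih =>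
    obtain ⟨d, h1, h2⟩ := h1
    obtain ⟨ds, hds⟩ := ih
    exact ⟨d :: ds, Computation.step h1 h2 hds⟩

theorem mem_language_iff {M : TwoNFA A Q} {w : List A} :
    w ∈ M.language ↔ ∃ q i, M.Reach w (M.start, 0) (q, i) ∧ q ∈ M.accepting := by
  constructor
  · rintro ⟨ds, q, i, h, hq⟩
    exact ⟨q, i, h.reach, hq⟩
  · rintro ⟨q, i, h, hq⟩
    obtain ⟨ds, hds⟩ := h.exists_computation
    exact ⟨ds, q, i, hds, hq⟩

theorem stp_stay {w : List A} {p q : Q} {i : ℕ} (h : (q, 0) ∈ M.trans p (cell w i)) :
    M.Stp w (p, i) (q, i) := ⟨0, h, by simp⟩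

theorem stp_right {w : List A} {p q : Q} {i : ℕ} (h : (q, 1) ∈ M.trans p (cell w i)) :
    M.Stp w (p, i) (q, i + 1) := ⟨1, h, by simp⟩

theorem stp_left {w : List A} {p q : Q} {i : ℕ} (h : (q, -1) ∈ M.trans p (cell w (i + 1))) :
    M.Stp w (p, i + 1) (q, i) := ⟨-1, h, by simp⟩

end TwoNFA

section cell

variable {A : Type}

theorem cell_zero (w : List A) : cell w 0 = TapeSymbol.leftEnd := rfl

theorem cell_append_cons (w1 : List A) (a : A) (w2 : List A) :
    cell (w1 ++ a :: w2) (w1.length + 1) = TapeSymbol.letter a := by
  simp [cell]

theorem cell_left (w1 u v : List A) {i : ℕ} (hi : i ≤ w1.length) :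
    cell (w1 ++ u) i = cell (w1 ++ v) i := by
  cases i with
  | zero => rfl
  | succ i =>
    have : i < w1.length := by omega
    simp [cell, List.getElem?_append_left this]

theorem cell_right (w1 w2 w3 : List A) (t : ℕ) :
    cell (w1 ++ w3) (w1.length + 1 + t) = cell (w2 ++ w3) (w2.length + 1 + t) := by
  have h1 : w1.length + 1 + t = (w1.length + t) + 1 := by ring
  have h2 : w2.length + 1 + t = (w2.length + t) + 1 := by ring
  rw [h1, h2]
  simp [cell, List.getElem?_append_right]

end cell

namespace TwoNFA

variable {A Q : Type} (M : TwoNFA A Q)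

theorem reach_stays {w : List A} {i : ℕ} {a : A} (hc : cell w i = TapeSymbol.letter a) {p q : Q}
    (h : M.stays a p q) : M.Reach w (p, i) (q, i) := by
  induction h with
  | refl => exact Relation.ReflTransGen.refl
  | tail _ h1 ih => exact Relation.ReflTransGen.tail ih (M.stp_stay (by rw [hc]; exact h1))

theorem reach_al (z : List A) : ∀ (w1 w2 : List A) {p q : Q}, M.al z p q →
    M.Reach (w1 ++ z ++ w2) (p, w1.length + 1) (q, w1.length + z.length + 1) := by
  induction z with
  | nil =>
    intro w1 w2 p q h
    rw [al_nil] at h
    obtain rfl : p = q := h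
    exact Relation.ReflTransGen.refl
  | cons a z ih =>
    intro w1 w2 p q h
    rw [al_cons] at h
    obtain ⟨r, ⟨p', h1, h2⟩, h3⟩ := h
    have hc : cell (w1 ++ (a :: z) ++ w2) (w1.length + 1) = TapeSymbol.letter a := by
      simpa using cell_append_cons w1 a (z ++ w2)
    have s1 := M.reach_stays hc h1
    have s2 := M.stp_right (w := w1 ++ (a :: z) ++ w2) (i := w1.length + 1)
      (p := p') (q := r) (by rw [hc]; exact h2)
    have s3 := ih (w1 ++ [a]) w2 h3
    have e1 : w1 ++ [a] ++ z ++ w2 = w1 ++ (a :: z) ++ w2 := by simp
    have e2 : (w1 ++ [a]).length = w1.length + 1 := by simp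
    have e3 : w1.length + 1 + z.length + 1 = w1.length + (a :: z).length + 1 := by
      simp; ring
    rw [e1, e2, e3] at s3
    exact (s1.tail s2).trans s3

theorem reach_be (z : List A) : ∀ (w1 w2 : List A) {p q : Q}, M.be z p q →
    M.Reach (w1 ++ z ++ w2) (p, w1.length + z.length) (q, w1.length) := by
  induction z with
  | nil =>
    intro w1 w2 p q h
    rw [be_nil] at h
    obtain rfl : p = q := h
    exact Relation.ReflTransGen.refl
  | cons a z ih =>
    intro w1 w2 p q h
    rw [be_cons] at h
    obtain ⟨r, h3, ⟨p', h1, h2⟩⟩ := h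
    have hc : cell (w1 ++ (a :: z) ++ w2) (w1.length + 1) = TapeSymbol.letter a := by
      simpa using cell_append_cons w1 a (z ++ w2)
    have s1 := M.reach_stays hc h1
    have s2 := M.stp_left (w := w1 ++ (a :: z) ++ w2) (i := w1.length)
      (p := p') (q := q) (by rw [hc]; exact h2)
    have s3 := ih (w1 ++ [a]) w2 h3
    have e1 : w1 ++ [a] ++ z ++ w2 = w1 ++ (a :: z) ++ w2 := by simp
    have e2 : (w1 ++ [a]).length = w1.length + 1 := by simp
    have e3 : w1.length + 1 + z.length = w1.length + (a :: z).length := by
      simp; ring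
    rw [e1, e2, e3] at s3
    exact s3.trans (s1.tail s2)

/-- Steps with a recorded direction of the last non-stationary move (`true` is right), without
reversals in the cells of `S`. -/
inductive DStep (w : List A) (S : Set ℕ) : Q × ℕ × Bool → Q × ℕ × Bool → Prop where
  | stay {p q : Q} {i : ℕ} {d : Bool} (h : (q, 0) ∈ M.trans p (cell w i)) :
      DStep w S (p, i, d) (q, i, d)
  | right {p q : Q} {i : ℕ} {d : Bool} (h : (q, 1) ∈ M.trans p (cell w i))
      (hd : d = false → i ∉ S) : DStep w S (p, i, d) (q, i + 1, true)
  | left {p q : Q} {i : ℕ} {d : Bool} (h : (q, -1) ∈ M.trans p (cell w (i + 1)))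
      (hd : d = true → i + 1 ∉ S) : DStep w S (p, i + 1, d) (q, i, false)

/-- The sign of a direction. -/
def sgn (d : Bool) : SignType := if d then 1 else -1

theorem Computation.exists_reversal_cells {M : TwoNFA A Q} {w : List A} {c c' : Q × ℕ}
    {ds : List SignType} (h : M.Computation w c ds c') (d : Bool) :
    ∃ V : Finset ℕ, V.card ≤ changes (sgn d :: ds.filter (fun e => e ≠ 0)) ∧
      ∃ d', ∀ S : Set ℕ, (∀ v ∈ V, v ∉ S) →
        Relation.ReflTransGen (M.DStep w S) (c.1, c.2, d) (c'.1, c'.2, d') := by
  classical
  induction h generalizing d with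
  | refl c =>
    exact ⟨∅, by simp, d, fun S _ => Relation.ReflTransGen.refl⟩
  | @step p q i j e ds c h1 h2 _ ih =>
    rcases e with _ | _ | _
    · -- zero
      obtain rfl : j = i := by
        have : ((SignType.zero : SignType) : ℤ) = 0 := rfl
        rw [this] at h2
        omega
      obtain ⟨V, hV, d', hd'⟩ := ih d
      refine ⟨V, ?_, d', fun S hS => ?_⟩
      · have : (SignType.zero :: ds).filter (fun e => decide (e ≠ 0)) =
            ds.filter (fun e => decide (e ≠ 0)) := by
          rw [List.filter_cons_of_neg]
          decide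
        rw [this]
        exact hV
      · exact Relation.ReflTransGen.head (DStep.stay h1) (hd' S hS)
    · -- neg
      obtain rfl : i = j + 1 := by
        have : ((SignType.neg : SignType) : ℤ) = -1 := rfl
        rw [this] at h2
        omega
      obtain ⟨V, hV, d', hd'⟩ := ih false
      have hf : (SignType.neg :: ds).filter (fun e => decide (e ≠ 0)) =
            SignType.neg :: ds.filter (fun e => decide (e ≠ 0)) := by
        rw [List.filter_cons_of_pos]
        decide
      rw [hf]
      have hs : sgn false = SignType.neg := rfl
      rw [hs] at hV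
      cases d with
      | false =>
        refine ⟨V, ?_, d', fun S hS => ?_⟩
        · rw [hs, changes]
          simpa using hV
        · exact Relation.ReflTransGen.head (DStep.left h1 (by simp)) (hd' S hS)
      | true =>
        refine ⟨insert (j + 1) V, ?_, d', fun S hS => ?_⟩
        · have hs' : sgn true = SignType.pos := rfl
          rw [hs', changes]
          have hne : ¬ (SignType.pos = SignType.neg) := by decide
          rw [if_neg hne]
          exact (Finset.card_insert_le _ _).trans (by omega)
        · refine Relation.ReflTransGen.head (DStep.left h1 ?_)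
            (hd' S fun v hv => hS v (Finset.mem_insert_of_mem hv))
          intro _
          exact hS _ (Finset.mem_insert_self _ _)
    · -- pos
      obtain rfl : j = i + 1 := by
        have : ((SignType.pos : SignType) : ℤ) = 1 := rfl
        rw [this] at h2
        omega
      obtain ⟨V, hV, d', hd'⟩ := ih true
      have hf : (SignType.pos :: ds).filter (fun e => decide (e ≠ 0)) =
            SignType.pos :: ds.filter (fun e => decide (e ≠ 0)) := by
        rw [List.filter_cons_of_pos]
        decide
      rw [hf]
      have hs : sgn true = SignType.pos := rfl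
      rw [hs] at hV
      cases d with
      | true =>
        refine ⟨V, ?_, d', fun S hS => ?_⟩
        · rw [hs, changes]
          simpa using hV
        · exact Relation.ReflTransGen.head (DStep.right h1 (by simp)) (hd' S hS)
      | false =>
        refine ⟨insert i V, ?_, d', fun S hS => ?_⟩
        · have hs' : sgn false = SignType.neg := rfl
          rw [hs', changes]
          have hne : ¬ (SignType.neg = SignType.pos) := by decide
          rw [if_neg hne]
          exact (Finset.card_insert_le _ _).trans (by omega)
        · refine Relation.ReflTransGen.head (DStep.right h1 ?_)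
            (hd' S fun v hv => hS v (Finset.mem_insert_of_mem hv))
          intro _
          exact hS _ (Finset.mem_insert_self _ _)

/-- The first non-stationary move from cell `0` goes right. -/
theorem Computation.changes_eq {M : TwoNFA A Q} {w : List A} {c c' : Q × ℕ}
    {ds : List SignType} (h : M.Computation w c ds c') (h0 : c.2 = 0) :
    changes (1 :: ds.filter (fun e => e ≠ 0)) = changes (ds.filter (fun e => e ≠ 0)) := by
  induction h with
  | refl c => simp [changes]
  | @step p q i j e ds c h1 h2 _ ih =>
    obtain rfl : i = 0 := h0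
    rcases e with _ | _ | _
    · obtain rfl : j = 0 := by
        have : ((SignType.zero : SignType) : ℤ) = 0 := rfl
        rw [this] at h2
        omega
      have : (SignType.zero :: ds).filter (fun e => decide (e ≠ 0)) =
            ds.filter (fun e => decide (e ≠ 0)) := by
        rw [List.filter_cons_of_neg]
        decide
      rw [this]
      exact ih rfl
    · exact absurd h1 (M.not_beyond_left p q)
    · have hf : (SignType.pos :: ds).filter (fun e => decide (e ≠ 0)) =
            SignType.pos :: ds.filter (fun e => decide (e ≠ 0)) := by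
        rw [List.filter_cons_of_pos]
        decide
      rw [hf, changes]
      have : ((1 : SignType) = SignType.pos) := rfl
      rw [if_pos this]
      omega

/-- The invariant of the replacement theorem. -/
inductive Inv (w1 x z w2 : List A) : Q × ℕ × Bool → Prop where
  | left {q : Q} {i : ℕ} {d : Bool} (hi : i ≤ w1.length)
      (h : M.Reach (w1 ++ z ++ w2) (M.start, 0) (q, i)) : Inv w1 x z w2 (q, i, d)
  | right {q : Q} {i : ℕ} {d : Bool} (t : ℕ) (hi : i = w1.length + x.length + 1 + t)
      (h : M.Reach (w1 ++ z ++ w2) (M.start, 0) (q, w1.length + z.length + 1 + t)) :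
      Inv w1 x z w2 (q, i, d)
  | inR {q : Q} {i : ℕ} (x1 : List A) (a : A) (x2 : List A) (hx : x = x1 ++ a :: x2)
      (hi : i = w1.length + x1.length + 1) (p r : Q)
      (h : M.Reach (w1 ++ z ++ w2) (M.start, 0) (p, w1.length + 1))
      (h1 : M.al x1 p r) (h2 : M.stays a r q) : Inv w1 x z w2 (q, i, true)
  | inL {q : Q} {i : ℕ} (x1 : List A) (a : A) (x2 : List A) (hx : x = x1 ++ a :: x2)
      (hi : i = w1.length + x1.length + 1) (p r : Q)
      (h : M.Reach (w1 ++ z ++ w2) (M.start, 0) (p, w1.length + z.length))
      (h1 : M.be x2 p r) (h2 : M.stays a r q) : Inv w1 x z w2 (q, i, false)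

variable {M}

theorem Inv.step {w1 x z w2 : List A} (hx0 : x ≠ [])
    (hal : ∀ p q, M.al x p q → M.al z p q) (hbe : ∀ p q, M.be x p q → M.be z p q)
    {c c' : Q × ℕ × Bool} (hI : M.Inv w1 x z w2 c)
    (hs : M.DStep (w1 ++ x ++ w2) {i | w1.length < i ∧ i ≤ w1.length + x.length} c c') :
    M.Inv w1 x z w2 c' := by
  have hlen : 0 < x.length := List.length_pos_iff.mpr hx0
  cases hI with
  | @left q i d hi h =>
    have hc : cell (w1 ++ x ++ w2) i = cell (w1 ++ z ++ w2) i := by
      rw [List.append_assoc, List.append_assoc]
      exact cell_left w1 _ _ hi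
    cases hs with
    | stay h1 =>
      rw [hc] at h1
      exact Inv.left hi (h.tail (M.stp_stay h1))
    | @right _ q' _ _ h1 hd =>
      rw [hc] at h1
      have h' := h.tail (M.stp_right h1)
      by_cases hi' : i + 1 ≤ w1.length
      · exact Inv.left hi' h'
      · obtain rfl : i = w1.length := by omega
        obtain ⟨a, x2, rfl⟩ := List.exists_cons_of_ne_nil hx0
        exact Inv.inR [] a x2 rfl (by simp) q' q' h' rfl Relation.ReflTransGen.refl
    | @left _ q' i' _ h1 hd =>
      rw [hc] at h1
      exact Inv.left (by omega) (h.tail (M.stp_left h1))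
  | @right q i d t hi h =>
    subst hi
    have hc : cell (w1 ++ x ++ w2) (w1.length + x.length + 1 + t) =
        cell (w1 ++ z ++ w2) (w1.length + z.length + 1 + t) := by
      have := cell_right (w1 ++ x) (w1 ++ z) w2 t
      simpa using this
    generalize hj : w1.length + x.length + 1 + t = j at hs hc
    cases hs with
    | stay h1 =>
      rw [hc] at h1
      exact Inv.right t hj.symm (h.tail (M.stp_stay h1))
    | right h1 hd =>
      rw [hc] at h1
      exact Inv.right (t + 1) (by omega) (h.tail (M.stp_right h1))
    | @left _ q' i' _ h1 hd =>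
      rw [hc] at h1
      cases t with
      | succ t =>
        have h' := h.tail (M.stp_left (i := w1.length + z.length + 1 + t) h1)
        exact Inv.right t (by omega) h'
      | zero =>
        have h' := h.tail (M.stp_left (i := w1.length + z.length) h1)
        obtain ⟨x1, a, rfl⟩ := (List.eq_nil_or_concat x).resolve_left hx0
        refine Inv.inL x1 a [] (by simp) ?_ q' q' h' rfl Relation.ReflTransGen.refl
        simp at hj
        omega
  | @inR q i x1 a x2 hx hi p r h h1 h2 =>
    have hc : cell (w1 ++ x ++ w2) i = TapeSymbol.letter a := by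
      subst hx hi
      have := cell_append_cons (w1 ++ x1) a (x2 ++ w2)
      simpa using this
    have hiS : i ∈ {i | w1.length < i ∧ i ≤ w1.length + x.length} := by
      subst hx hi
      simp only [Set.mem_ofPred_eq, List.length_append, List.length_cons]
      omega
    cases hs with
    | stay h3 =>
      rw [hc] at h3
      exact Inv.inR x1 a x2 hx hi p r h h1 (h2.tail h3)
    | @right _ q' _ _ h3 hd =>
      rw [hc] at h3
      have h4 : M.al (x1 ++ [a]) p q' := by
        rw [al_append, al_singleton]
        exact ⟨r, h1, ⟨q, h2, h3⟩⟩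
      cases x2 with
      | nil =>
        subst hx
        have h5 := M.reach_al z w1 w2 (hal _ _ h4)
        refine Inv.right 0 ?_ ?_
        · simp; omega
        · exact Relation.ReflTransGen.trans h h5
      | cons b x2 =>
        refine Inv.inR (x1 ++ [a]) b x2 (by rw [hx]; simp) (by simp; omega) p q' h h4
          Relation.ReflTransGen.refl
    | left h3 hd => exact absurd hiS (hd rfl)
  | @inL q i x1 a x2 hx hi p r h h1 h2 =>
    have hc : cell (w1 ++ x ++ w2) i = TapeSymbol.letter a := by
      subst hx hi
      have := cell_append_cons (w1 ++ x1) a (x2 ++ w2)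
      simpa using this
    have hiS : i ∈ {i | w1.length < i ∧ i ≤ w1.length + x.length} := by
      subst hx hi
      simp only [Set.mem_ofPred_eq, List.length_append, List.length_cons]
      omega
    generalize hd0 : false = d0 at hs
    cases hs with
    | stay h3 =>
      subst hd0
      rw [hc] at h3
      exact Inv.inL x1 a x2 hx hi p r h h1 (h2.tail h3)
    | right h3 hd =>
      subst hd0
      exact absurd hiS (hd rfl)
    | @left _ q' i' _ h3 hd =>
      rw [hc] at h3
      have h4 : M.be (a :: x2) p q' := by
        rw [be_cons]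
        exact ⟨r, h1, ⟨q, h2, h3⟩⟩
      rcases List.eq_nil_or_concat x1 with rfl | ⟨x1', b, rfl⟩
      · subst hx
        have h5 := M.reach_be z w1 w2 (hbe _ _ h4)
        refine Inv.left (i := i') ?_ ?_
        · simp at hi; omega
        · have : i' = w1.length := by simp at hi; omega
          rw [this]
          exact Relation.ReflTransGen.trans h h5
      · refine Inv.inL x1' b (a :: x2) (by rw [hx]; simp) ?_ p q' h h4
          Relation.ReflTransGen.refl
        simp at hi
        omega

/-- Replacement theorem: if `M` accepts `w1 x w2` by a path without reversals in `x` that ends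
outside `x`, and the straight crossings of `x` are straight crossings of `z`, then `M` accepts
`w1 z w2`. -/
theorem replace {w1 x z w2 : List A} (hx0 : x ≠ [])
    (hal : ∀ p q, M.al x p q → M.al z p q) (hbe : ∀ p q, M.be x p q → M.be z p q)
    {q : Q} {i : ℕ} {d : Bool}
    (h : Relation.ReflTransGen
      (M.DStep (w1 ++ x ++ w2) {i | w1.length < i ∧ i ≤ w1.length + x.length})
      (M.start, 0, true) (q, i, d))
    (hi : ¬ (w1.length < i ∧ i ≤ w1.length + x.length)) (hq : q ∈ M.accepting) :
    w1 ++ z ++ w2 ∈ M.language := by
  have hI : M.Inv w1 x z w2 (q, i, d) := by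
    have h0 : M.Inv w1 x z w2 (M.start, 0, true) :=
      Inv.left (Nat.zero_le _) Relation.ReflTransGen.refl
    generalize (q, i, d) = c at h
    induction h with
    | refl => exact h0
    | tail _ hs ih => exact ih.step hx0 hal hbe hs
  rw [mem_language_iff]
  cases hI with
  | left _ h => exact ⟨_, _, h, hq⟩
  | right t _ h => exact ⟨_, _, h, hq⟩
  | inR x1 a x2 hx hi' =>
    exfalso
    apply hi
    subst hx hi'
    simp only [List.length_append, List.length_cons]
    omega
  | inL x1 a x2 hx hi' =>
    exfalso
    apply hi
    subst hx hi'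
    simp only [List.length_append, List.length_cons]
    omega

end TwoNFA

end Vale.Agent.P343
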