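import Mathlib

/-! Two-way nondeterministic finite automata, with computations given by their sequences of states
and head positions. -/

namespace Vale.Agent.P343.D3

/-- A two-way nondeterministic finite automaton over the alphabet `A`. A tape symbol is a letter
`Sum.inr a`, the left endmarker `Sum.inl false` or the right endmarker `Sum.inl true`.
`M.move p s q d` means: in state `p`, scanning `s`, the automaton may enter state `q` and move its
head by `d ∈ {-1, 0, 1}` cells. It never moves beyond an endmarker. -/
structure Automaton (A : Type) where
  State : Type
  finite : Finite State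
  init : State
  final : Set State
  move : State → Bool ⊕ A → State → ℤ → Prop
  move_le : ∀ p s q d, move p s q d → |d| ≤ 1
  left_end : ∀ p q d, move p (Sum.inl false) q d → 0 ≤ d
  right_end : ∀ p q d, move p (Sum.inl true) q d → d ≤ 0

/-- The tape content: `w` between the endmarkers. Its cells are numbered from `0`. -/
def tape {A : Type} (w : List A) : List (Bool ⊕ A) :=
  Sum.inl false :: (w.map Sum.inr ++ [Sum.inl true])

namespace Automaton

variable {A : Type} (M : Automaton A)

/-- The states `p 0, …, p T` and the head positions `x 0, …, x T` form an accepting computation of
`M` on `w`: it starts in the initial state on the left endmarker, each of its `T` steps is a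
move of `M`, and it ends in an accepting state. -/
def Accepts (w : List A) (T : ℕ) (p : ℕ → M.State) (x : ℕ → ℕ) : Prop :=
  p 0 = M.init ∧ x 0 = 0 ∧ p T ∈ M.final ∧
    ∀ t < T, ∃ s, (tape w)[x t]? = some s ∧ M.move (p t) s (p (t + 1)) ((x (t + 1) : ℤ) - x t)

/-- The language recognized by `M`. -/
def lang : Language A :=
  {w | ∃ T p x, M.Accepts w T p x}

/-- `M` is one-way: its head never moves left. -/
def OneWay : Prop :=
  ∀ p s q d, M.move p s q d → 0 ≤ d

end Automaton

/-- The number of head reversals in the first `T` steps of a computation with head positions `x`:
the number of steps `t` that move the head against the direction of the last previous step `s`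
that moved it. -/
noncomputable def turns (T : ℕ) (x : ℕ → ℕ) : ℕ :=
  {t : ℕ | t < T ∧ ∃ s < t, ((x (s + 1) : ℤ) - x s) * ((x (t + 1) : ℤ) - x t) < 0 ∧
    ∀ u, s < u → u < t → x (u + 1) = x u}.ncard

end Vale.Agent.P343.D3
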