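import Vale.Agent.Lib.P343.UnaryPump

/-!
# A unary one-way automaton whose complement is expensive
-/

namespace Vale.Agent.P343

namespace Unary

/-- Transitions: the cycle `0 → 1 → ⋯ → n → 0` with the additional edge `n → 1`. -/
inductive WTr (n : ℕ) :
    Option (Fin (n + 1)) → TapeSymbol Unit → Option (Fin (n + 1)) × SignType → Prop where
  | start : WTr n (some 0) TapeSymbol.leftEnd (some 0, 1)
  | next (i j : Fin (n + 1)) (h : (j : ℕ) = i + 1) :
      WTr n (some i) (TapeSymbol.letter ()) (some j, 1)
  | back (i j : Fin (n + 1)) (hi : (i : ℕ) = n) (hj : (j : ℕ) ≤ 1) :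
      WTr n (some i) (TapeSymbol.letter ()) (some j, 1)
  | accept : WTr n (some 0) TapeSymbol.rightEnd (none, 0)

/-- The one-way automaton with `n + 2` states. -/
def wauto (n : ℕ) : TwoNFA Unit (Option (Fin (n + 1))) where
  start := some 0
  accepting := {none}
  trans p s := {c | WTr n p s c}
  not_beyond_left p q h := by
    have h' : WTr n p TapeSymbol.leftEnd (q, -1) := h
    cases h'
  not_beyond_right p q h := by
    have h' : WTr n p TapeSymbol.rightEnd (q, 1) := h
    cases h'

theorem wauto_oneWay (n : ℕ) : (wauto n).OneWay := by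
  intro p s q h
  have h' : WTr n p s (q, -1) := h
  cases h'

variable {n : ℕ}

/-- Lengths of closed walks at `0`. -/
def Good (n t : ℕ) : Prop := t = 0 ∨ ∃ a b, t = (n + 1) * (a + 1) + n * b

/-- What is known about reachable configurations. -/
inductive WKnown (n N : ℕ) : Option (Fin (n + 1)) × ℕ → Prop where
  | init : WKnown n N (some 0, 0)
  | mid (v : Fin (n + 1)) (t a b : ℕ) (ht : t = (n + 1) * a + n * b + v)
      (hv : (v : ℕ) = 0 → b = 0 ∨ 1 ≤ a) (htN : t ≤ N) : WKnown n N (some v, t + 1)
  | fin (i : ℕ) (h : Good n N) : WKnown n N (none, i)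

theorem letter_le {N i : ℕ} (h : cell (word N) i = TapeSymbol.letter ()) : i ≤ N := by
  by_contra hlt
  rw [cell_word_end (by omega)] at h
  cases h

theorem wknown_step {N : ℕ} {c c' : Option (Fin (n + 1)) × ℕ}
    (hk : WKnown n N c) (hs : (wauto n).Stp (word N) c c') : WKnown n N c' := by
  obtain ⟨d, h, hd⟩ := hs
  obtain ⟨q, j⟩ := c'
  obtain ⟨p, i⟩ := c
  simp only at hd
  have h' : WTr n p (cell (word N) i) (q, d) := h
  have one : ((1 : SignType) : ℤ) = 1 := rfl
  generalize hc : cell (word N) i = s at h'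
  cases h' with
  | start =>
    cases hk with
    | init =>
      rw [one] at hd
      obtain rfl : j = 0 + 1 := by omega
      exact WKnown.mid 0 0 0 0 (by simp) (by simp) (Nat.zero_le _)
    | mid v t a b ht hv =>
      exfalso
      rcases Nat.lt_or_ge N (t + 1) with h1 | h1
      · rw [cell_word_end (by omega)] at hc
        cases hc
      · rw [cell_word (by omega) h1] at hc
        cases hc
  | next v v' hv' =>
    have hi := letter_le hc
    cases hk with
    | init => cases hc
    | mid v t a b ht hv =>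
      rw [one] at hd
      obtain rfl : j = (t + 1) + 1 := by omega
      exact WKnown.mid v' (t + 1) a b (by omega) (by omega) hi
  | back v v' hv1 hv2 =>
    have hi := letter_le hc
    cases hk with
    | init => cases hc
    | mid v t a b ht hv =>
      rw [one] at hd
      obtain rfl : j = (t + 1) + 1 := by omega
      by_cases h0 : (v' : ℕ) = 0
      · refine WKnown.mid v' (t + 1) (a + 1) b ?_ (by omega) hi
        rw [ht, hv1, h0]; ring
      · have h1 : (v' : ℕ) = 1 := by omega
        refine WKnown.mid v' (t + 1) a (b + 1) ?_ (by omega) hi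
        rw [ht, hv1, h1]; ring
  | accept =>
    cases hk with
    | init => cases hc
    | mid v t a b ht hv htN =>
      have hNt : N ≤ t := by
        by_contra hlt
        rw [cell_word (by omega) (by omega)] at hc
        cases hc
      obtain rfl : t = N := le_antisymm htN hNt
      refine WKnown.fin _ ?_
      simp only [Fin.val_zero, add_zero] at ht
      rcases hv rfl with rfl | ha
      · cases a with
        | zero => left; simpa using ht
        | succ a => right; exact ⟨a, 0, ht⟩
      · obtain ⟨a, rfl⟩ : ∃ k, a = k + 1 := ⟨a - 1, by omega⟩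
        right; exact ⟨a, b, ht⟩

theorem good_of_mem {N : ℕ} (h : word N ∈ (wauto n).language) : Good n N := by
  rw [TwoNFA.mem_language_iff] at h
  obtain ⟨q, i, h, hq⟩ := h
  have hk : WKnown n N (q, i) := by
    have h0 : WKnown n N ((wauto n).start, 0) := WKnown.init
    generalize (q, i) = c at h
    unfold TwoNFA.Reach at h
    induction h with
    | refl => exact h0
    | tail _ hs ih => exact wknown_step ih hs
  have hq' : q = none := hq
  subst hq'
  cases hk with
  | fin _ h => exact h

/-- `t` steps take vertex `u` to vertex `v`. -/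
def Rr (n N : ℕ) (u : ℕ) (t : ℕ) (v : ℕ) : Prop :=
  ∀ s, s + t ≤ N → ∀ i j : Fin (n + 1), (i : ℕ) = u → (j : ℕ) = v →
    (wauto n).Reach (word N) (some i, s + 1) (some j, s + t + 1)

theorem rr_step {N u v : ℕ} (h : v = u + 1 ∨ (u = n ∧ v ≤ 1)) : Rr n N u 1 v := by
  intro s hs i j hi hj
  refine Relation.ReflTransGen.single ?_
  apply TwoNFA.stp_right
  rw [cell_word (by omega) (by omega)]
  rcases h with h | ⟨h1, h2⟩
  · exact WTr.next i j (by omega)
  · exact WTr.back i j (by omega) (by omega)

theorem rr_zero {N u : ℕ} : Rr n N u 0 u := by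
  intro s hs i j hi hj
  have : i = j := Fin.ext (by omega)
  subst this
  exact Relation.ReflTransGen.refl

theorem rr_trans {N u v w t t' : ℕ} (hv : v ≤ n) (h1 : Rr n N u t v) (h2 : Rr n N v t' w) :
    Rr n N u (t + t') w := by
  intro s hs i j hi hj
  have a1 := h1 s (by omega) i ⟨v, by omega⟩ hi rfl
  have a2 := h2 (s + t) (by omega) ⟨v, by omega⟩ j rfl hj
  have e : s + t + t' + 1 = s + (t + t') + 1 := by ring
  rw [e] at a2
  exact Relation.ReflTransGen.trans a1 a2

theorem rr_forward {N : ℕ} (k : ℕ) : ∀ u, u + k ≤ n → Rr n N u k (u + k) := by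
  induction k with
  | zero => intro u _; exact rr_zero
  | succ k ih =>
    intro u hu
    have h1 := ih u (by omega)
    exact rr_trans (by omega) h1 (rr_step (Or.inl (by omega)))

theorem rr_loop {N u t : ℕ} (hu : u ≤ n) (h : Rr n N u t u) (a : ℕ) : Rr n N u (t * a) u := by
  induction a with
  | zero => exact rr_zero
  | succ a ih => rw [Nat.mul_succ]; exact rr_trans hu ih h

theorem rr_good {N a b : ℕ} (hn : 1 ≤ n) : Rr n N 0 ((n + 1) * (a + 1) + n * b) 0 := by
  have c1 : Rr n N 0 (n + 1) 0 := by
    have h1 := rr_forward (n := n) (N := N) n 0 (by omega)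
    rw [zero_add] at h1
    exact rr_trans le_rfl h1 (rr_step (Or.inr ⟨rfl, by omega⟩))
  have f1 : Rr n N 1 (n - 1) n := by
    have h1 := rr_forward (n := n) (N := N) (n - 1) 1 (by omega)
    have e : 1 + (n - 1) = n := by omega
    rwa [e] at h1
  have c2 : Rr n N 1 n 1 := by
    have h2 := rr_trans le_rfl f1 (rr_step (Or.inr ⟨rfl, le_rfl⟩))
    have e : n - 1 + 1 = n := by omega
    rwa [e] at h2
  have s0 : Rr n N 0 1 1 := rr_step (Or.inl rfl)
  have s1 := rr_trans hn s0 (rr_loop hn c2 b)
  have s2 := rr_trans hn s1 f1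
  have s3 := rr_trans le_rfl s2 (rr_step (Or.inr ⟨rfl, Nat.zero_le 1⟩))
  have s4 := rr_trans (Nat.zero_le _) s3 (rr_loop (Nat.zero_le _) c1 a)
  have e : 1 + n * b + (n - 1) + 1 + (n + 1) * a = (n + 1) * (a + 1) + n * b := by
    have : 1 + n * b + (n - 1) + 1 = n + 1 + n * b := by omega
    rw [this]; ring
  rwa [e] at s4

theorem mem_of_good (hn : 1 ≤ n) {N : ℕ} (h : Good n N) : word N ∈ (wauto n).language := by
  rw [TwoNFA.mem_language_iff]
  have h0 : (wauto n).Stp (word N) (some 0, 0) (some 0, 0 + 1) := by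
    apply TwoNFA.stp_right
    exact WTr.start
  have hN : Rr n N 0 N 0 := by
    rcases h with rfl | ⟨a, b, hab⟩
    · exact rr_zero
    · have := rr_good (N := N) (a := a) (b := b) hn
      rwa [← hab] at this
  have h1 := hN 0 (by omega) 0 0 rfl rfl
  have h2 : (wauto n).Stp (word N) (some 0, 0 + N + 1) (none, 0 + N + 1) := by
    apply TwoNFA.stp_stay
    rw [cell_word_end (by omega)]
    exact WTr.accept
  exact ⟨none, _, ((Relation.ReflTransGen.head h0 h1).tail h2), rfl⟩

theorem not_good_sq (hn : 1 ≤ n) : ¬ Good n (n ^ 2) := by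
  rintro (h | ⟨a, b, h⟩)
  · have : 0 < n ^ 2 := by positivity
    omega
  · have hdvd : n ∣ (a + 1) := by
      have h1 : n ∣ (n + 1) * (a + 1) + n * b := by rw [← h]; exact Dvd.intro_left _ (by ring)
      have h2 : n ∣ n * (a + 1) + n * b := Dvd.intro (a + 1 + b) (by ring)
      have h3 : (n + 1) * (a + 1) + n * b = (a + 1) + (n * (a + 1) + n * b) := by ring
      rw [h3] at h1
      exact (Nat.dvd_add_left h2).mp h1
    have hle := Nat.le_of_dvd (by omega) hdvd
    nlinarith

theorem good_of_gt (hn : 1 ≤ n) {t : ℕ} (ht : n ^ 2 < t) : Good n t := by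
  right
  -- `r` is the residue of `t - 1` modulo `n`, so `r + 1 ≤ n` and `n ∣ t - (r + 1)`
  set r := (t - 1) % n with hr
  set q := (t - 1) / n with hq
  have hdm : n * q + r = t - 1 := Nat.div_add_mod _ _
  have hrn : r < n := Nat.mod_lt _ (by omega)
  -- `q ≥ r + 1`
  have hqr : r + 1 ≤ q := by
    by_contra hlt
    push Not at hlt
    have h1 : q ≤ r := by omega
    have h2 : n * q ≤ n * r := Nat.mul_le_mul_left n h1
    have h3 : t = n * q + r + 1 := by omega
    have h4 : n * r + r + 1 = (n + 1) * (r + 1) - n := by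
      have : (n + 1) * (r + 1) = n * r + n + r + 1 := by ring
      omega
    have h5 : (n + 1) * (r + 1) ≤ (n + 1) * n := Nat.mul_le_mul_left _ hrn
    have h6 : (n + 1) * n = n ^ 2 + n := by ring
    omega
  refine ⟨r, q - (r + 1), ?_⟩
  obtain ⟨k, hk⟩ : ∃ k, q = (r + 1) + k := ⟨q - (r + 1), by omega⟩
  rw [hk] at hdm ⊢
  have e1 : r + 1 + k - (r + 1) = k := by omega
  rw [e1]
  have e2 : (n + 1) * (r + 1) + n * k = n * (r + 1 + k) + r + 1 := by ring
  rw [e2]
  omega

/-- The quadratic lower bound for complementation. -/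
theorem quadratic {Q : Type} [Fintype Q] (M : TwoNFA Unit Q)
    (hL : M.language = (wauto n).languageᶜ) : n ^ 2 < Fintype.card Q := by
  have hcard : 1 ≤ Fintype.card Q := Fintype.card_pos_iff.mpr ⟨M.start⟩
  rcases Nat.eq_zero_or_pos n with rfl | hn
  · simp only [ne_eq, OfNat.ofNat_ne_zero, not_false_eq_true, zero_pow]
    omega
  · by_contra hlt
    push Not at hlt
    have h1 : word (n ^ 2) ∈ M.language := by
      rw [hL]
      intro h
      exact not_good_sq hn (good_of_mem h)
    have h2 := pumping hlt h1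
    rw [hL] at h2
    apply h2
    refine mem_of_good hn (good_of_gt hn ?_)
    have := Nat.factorial_pos (Fintype.card Q)
    omega

end Unary

end Vale.Agent.P343
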