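import Vale.Agent.Lib.P343.Main
import Vale.Agent.Lib.P343.UnaryMain
import Vale.Agent.Lib.P343.D3Defs

/-! Bridge between the two encodings of two-way automata. -/

namespace Vale.Agent.P343.D3

open Vale.Agent.P343

variable {A : Type}

/-- translate tape symbols -/
def sym : TapeSymbol A → Bool ⊕ A
  | TapeSymbol.leftEnd => Sum.inl false
  | TapeSymbol.letter a => Sum.inr a
  | TapeSymbol.rightEnd => Sum.inl true

theorem sym_inj {s t : TapeSymbol A} (h : sym s = sym t) : s = t := by
  cases s <;> cases t <;> simp_all [sym]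

theorem sign_cast_inj {d e : SignType} (h : ((d : ℤ)) = (e : ℤ)) : d = e := by
  revert h; cases d <;> cases e <;> simp

theorem tape_get (w : List A) (i : ℕ) (hi : i ≤ w.length + 1) :
    (tape w)[i]? = some (sym (cell w i)) := by
  cases i with
  | zero => rfl
  | succ i =>
    rw [tape, List.getElem?_cons_succ]
    by_cases h : i < w.length
    · rw [List.getElem?_append_left (by simpa using h)]
      simp [cell, h, sym]
    · have h1 : i = w.length := by omega
      subst h1
      simp [cell, sym]

theorem tape_get_lt (w : List A) (i : ℕ) (s : Bool ⊕ A) (h : (tape w)[i]? = some s) :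
    i ≤ w.length + 1 := by
  have := (List.getElem?_eq_some_iff.mp h).1
  simp [tape] at this
  omega

/-- from the second encoding to the first -/
def toNFA (M : Automaton A) : TwoNFA A M.State where
  start := M.init
  accepting := M.final
  trans p s := {x | M.move p (sym s) x.1 (x.2 : ℤ)}
  not_beyond_left p q h := by
    have := M.left_end p q _ h
    simp at this
  not_beyond_right p q h := by
    have := M.right_end p q _ h
    simp at this

/-- from the first encoding to the second -/
def ofNFA {Q : Type} [Finite Q] (N : TwoNFA A Q) : Automaton A where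
  State := Q
  finite := inferInstance
  init := N.start
  final := N.accepting
  move p s q d := ∃ e : SignType, (e : ℤ) = d ∧ ∃ r, sym r = s ∧ (q, e) ∈ N.trans p r
  move_le := by
    rintro p s q d ⟨e, rfl, -⟩
    cases e <;> simp
  left_end := by
    rintro p q d ⟨e, rfl, r, hr, h⟩
    have hr' : r = TapeSymbol.leftEnd := sym_inj (t := TapeSymbol.leftEnd) hr
    subst hr'
    cases e with
    | neg => exact absurd h (N.not_beyond_left p q)
    | zero => simp
    | pos => simp
  right_end := by
    rintro p q d ⟨e, rfl, r, hr, h⟩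
    have hr' : r = TapeSymbol.rightEnd := sym_inj (t := TapeSymbol.rightEnd) hr
    subst hr'
    cases e with
    | pos => exact absurd h (N.not_beyond_right p q)
    | zero => simp
    | neg => simp

theorem toNFA_ofNFA {Q : Type} [Finite Q] (N : TwoNFA A Q) : toNFA (ofNFA N) = N := by
  have h : (toNFA (ofNFA N)).trans = N.trans := by
    funext p s
    ext ⟨q, d⟩
    constructor
    · rintro ⟨e, he, r, hr, h⟩
      have h1 : e = d := sign_cast_inj he
      have h2 : r = s := sym_inj hr
      subst h1 h2
      exact h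
    · intro h
      exact ⟨d, rfl, s, rfl, h⟩
  cases N
  simp only [toNFA, ofNFA, TwoNFA.mk.injEq, true_and]
  exact h

/-- the sign of the move at time `t` -/
noncomputable def mv (x : ℕ → ℕ) (t : ℕ) : SignType := SignType.sign ((x (t + 1) : ℤ) - x t)

theorem mv_cast {x : ℕ → ℕ} {t : ℕ} (h : |((x (t + 1) : ℤ) - x t)| ≤ 1) :
    ((mv x t : SignType) : ℤ) = (x (t + 1) : ℤ) - x t := by
  rw [mv]
  rw [abs_le] at h
  rcases lt_trichotomy ((x (t + 1) : ℤ) - x t) 0 with h1 | h1 | h1
  · rw [sign_neg h1]; simp; omega
  · rw [h1]; simp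
  · rw [sign_pos h1]; simp; omega

theorem computation_snoc {Q : Type} {N : TwoNFA A Q} {w : List A} {c c' : Q × ℕ}
    {ds : List SignType} (h : N.Computation w c ds c') {q : Q} {j : ℕ} {d : SignType}
    (h1 : (q, d) ∈ N.trans c'.1 (cell w c'.2)) (h2 : (j : ℤ) = (c'.2 : ℤ) + (d : ℤ)) :
    N.Computation w c (ds ++ [d]) (q, j) := by
  induction h with
  | refl c => exact TwoNFA.Computation.step h1 h2 (TwoNFA.Computation.refl _)
  | step h3 h4 _ ih => exact TwoNFA.Computation.step h3 h4 (ih h1 h2)

theorem run_computation {M : Automaton A} {w : List A} {T : ℕ} {p : ℕ → M.State} {x : ℕ → ℕ}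
    (h0 : p 0 = M.init) (hx0 : x 0 = 0)
    (h : ∀ t < T, ∃ s, (tape w)[x t]? = some s ∧
      M.move (p t) s (p (t + 1)) ((x (t + 1) : ℤ) - x t)) :
    (toNFA M).Computation w (M.init, 0) ((List.range T).map (mv x)) (p T, x T) := by
  induction T with
  | zero => rw [h0, hx0]; exact TwoNFA.Computation.refl _
  | succ T ih =>
    rw [List.range_succ, List.map_append]
    obtain ⟨s, hs, hm⟩ := h T (Nat.lt_succ_self T)
    have hc := mv_cast (M.move_le _ _ _ _ hm)
    refine computation_snoc (ih fun t ht => h t (by omega)) ?_ ?_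
    · change M.move (p T) (sym (cell w (x T))) (p (T + 1)) ((mv x T : SignType) : ℤ)
      rw [hc]
      have h1 := tape_get w (x T) (tape_get_lt w _ _ hs)
      rw [hs, Option.some.injEq] at h1
      rw [← h1]
      exact hm
    · simp only
      rw [hc]
      ring

theorem accepts_to {M : Automaton A} {w : List A} {T : ℕ} {p : ℕ → M.State} {x : ℕ → ℕ}
    (h : M.Accepts w T p x) : (toNFA M).AcceptsWith w ((List.range T).map (mv x)) :=
  ⟨p T, x T, run_computation h.1 h.2.1 h.2.2.2, h.2.2.1⟩

theorem computation_run {M : Automaton A} {w : List A} {c c' : M.State × ℕ} {ds : List SignType}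
    (h : (toNFA M).Computation w c ds c') (hc : c.2 ≤ w.length + 1) :
    ∃ (T : ℕ) (p : ℕ → M.State) (x : ℕ → ℕ), p 0 = c.1 ∧ x 0 = c.2 ∧ p T = c'.1 ∧
      ∀ t < T, ∃ s, (tape w)[x t]? = some s ∧
        M.move (p t) s (p (t + 1)) ((x (t + 1) : ℤ) - x t) := by
  induction h with
  | refl c => exact ⟨0, fun _ => c.1, fun _ => c.2, rfl, rfl, rfl, fun t ht => by omega⟩
  | @step p q i j d ds c h1 h2 h3 ih =>
    have hm : M.move p (sym (cell w i)) q (d : ℤ) := h1
    have hj : j ≤ w.length + 1 := by
      simp only at hc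
      by_cases hi : i = w.length + 1
      · subst hi
        have hcell : cell w (w.length + 1) = TapeSymbol.rightEnd := by simp [cell]
        rw [hcell] at hm
        have := M.right_end _ _ _ hm
        omega
      · have := M.move_le _ _ _ _ hm
        rw [abs_le] at this
        omega
    obtain ⟨T, P, X, hP0, hX0, hPT, hst⟩ := ih hj
    refine ⟨T + 1, fun t => Nat.casesOn t p P, fun t => Nat.casesOn t i X, rfl, rfl, hPT, ?_⟩
    intro t ht
    cases t with
    | zero =>
      refine ⟨_, tape_get w i hc, ?_⟩
      change M.move p (sym (cell w i)) (P 0) ((X 0 : ℤ) - i)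
      rw [hP0, hX0]
      simp only
      have : (j : ℤ) - i = d := by omega
      rw [this]
      exact hm
    | succ t => exact hst t (by omega)

theorem lang_eq (M : Automaton A) : (toNFA M).language = M.lang := by
  ext w
  constructor
  · rintro ⟨ds, q, i, h, hq⟩
    obtain ⟨T, p, x, h0, hx0, hT, hst⟩ := computation_run h (Nat.zero_le _)
    refine ⟨T, p, x, h0, hx0, ?_, hst⟩
    rw [hT]
    exact hq
  · rintro ⟨T, p, x, h⟩
    exact ⟨_, accepts_to h⟩

theorem lang_of {Q : Type} [Finite Q] (N : TwoNFA A Q) : (ofNFA N).lang = N.language := by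
  rw [← lang_eq, toNFA_ofNFA]
  rfl

theorem oneWay_of {Q : Type} [Finite Q] {N : TwoNFA A Q} (h : N.OneWay) : (ofNFA N).OneWay := by
  rintro p s q d ⟨e, rfl, r, hr, h1⟩
  cases e with
  | neg => exact absurd h1 (h p r q)
  | zero => simp
  | pos => simp

theorem changes_snoc (l : List SignType) (a : SignType) :
    changes (l ++ [a]) = changes l + (if ∃ b, l.getLast? = some b ∧ b ≠ a then 1 else 0) := by
  induction l with
  | nil => simp [changes]
  | cons b l ih =>
    cases l with
    | nil =>
      by_cases h : b = a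
      · simp [changes, h]
      · simp [changes, h]
    | cons c l =>
      have h1 : (b :: c :: l) ++ [a] = b :: c :: (l ++ [a]) := rfl
      rw [h1, changes, changes]
      have h2 : c :: (l ++ [a]) = (c :: l) ++ [a] := rfl
      rw [h2, ih, List.getLast?_cons_cons]
      ring

/-- the nonzero moves among the first `T` -/
noncomputable def nz (x : ℕ → ℕ) (T : ℕ) : List SignType := ((List.range T).map (mv x)).filter (fun d => d ≠ 0)

theorem nz_succ (x : ℕ → ℕ) (T : ℕ) :
    nz x (T + 1) = nz x T ++ (if mv x T = 0 then [] else [mv x T]) := by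
  rw [nz, List.range_succ, List.map_append, List.filter_append, ← nz]
  by_cases h : mv x T = 0 <;> simp [h]

theorem nz_last (x : ℕ → ℕ) (T : ℕ) (b : SignType) :
    (nz x T).getLast? = some b ↔ ∃ s < T, mv x s = b ∧ b ≠ 0 ∧ ∀ u, s < u → u < T → mv x u = 0 := by
  induction T with
  | zero => simp [nz]
  | succ T ih =>
    rw [nz_succ]
    by_cases h : mv x T = 0
    · rw [if_pos h, List.append_nil, ih]
      constructor
      · rintro ⟨s, hs, h1, h2, h3⟩
        refine ⟨s, by omega, h1, h2, fun u hu hu' => ?_⟩
        rcases Nat.lt_succ_iff_lt_or_eq.mp hu' with h4 | h4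
        · exact h3 u hu h4
        · rw [h4]; exact h
      · rintro ⟨s, hs, h1, h2, h3⟩
        have hsT : s ≠ T := fun h4 => h2 (by rw [← h1, h4]; exact h)
        exact ⟨s, by omega, h1, h2, fun u hu hu' => h3 u hu (by omega)⟩
    · rw [if_neg h, List.getLast?_concat, Option.some.injEq]
      constructor
      · intro h1
        exact ⟨T, by omega, h1, fun h2 => h (h1.trans h2), fun u hu hu' => by omega⟩
      · rintro ⟨s, hs, h1, h2, h3⟩
        by_cases hsT : s = T
        · rw [← hsT]; exact h1
        · exact absurd (h3 T (by omega) (by omega)) h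

theorem mv_eq_zero {x : ℕ → ℕ} {t : ℕ} : mv x t = 0 ↔ x (t + 1) = x t := by
  rw [mv, sign_eq_zero_iff]
  omega

theorem mul_neg_iff_mv {x : ℕ → ℕ} {s t : ℕ} :
    ((x (s + 1) : ℤ) - x s) * ((x (t + 1) : ℤ) - x t) < 0 ↔
      mv x s ≠ 0 ∧ mv x t ≠ 0 ∧ mv x s ≠ mv x t := by
  rw [← sign_eq_neg_one_iff, sign_mul, ← mv, ← mv]
  generalize mv x s = a
  generalize mv x t = b
  revert a b
  decide

theorem turns_eq (x : ℕ → ℕ) (T : ℕ) : reversals ((List.range T).map (mv x)) = turns T x := by
  classical
  change changes (nz x T) = turns T x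
  have hfin : ∀ T, {t : ℕ | t < T ∧ ∃ s < t,
      ((x (s + 1) : ℤ) - x s) * ((x (t + 1) : ℤ) - x t) < 0 ∧
      ∀ u, s < u → u < t → x (u + 1) = x u}.Finite :=
    fun T => (Set.finite_lt_nat T).subset fun t ht => ht.1
  induction T with
  | zero => simp [nz, changes, turns]
  | succ T ih =>
    have key : turns (T + 1) x = turns T x +
        (if ∃ s < T, ((x (s + 1) : ℤ) - x s) * ((x (T + 1) : ℤ) - x T) < 0 ∧
          ∀ u, s < u → u < T → x (u + 1) = x u then 1 else 0) := by
      by_cases h : ∃ s < T, ((x (s + 1) : ℤ) - x s) * ((x (T + 1) : ℤ) - x T) < 0 ∧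
          ∀ u, s < u → u < T → x (u + 1) = x u
      · rw [if_pos h, turns, turns, ← Set.ncard_insert_of_notMem (a := T) (fun h1 => ?_) (hfin T)]
        · congr 1
          ext t
          simp only [Set.mem_setOf_eq, Set.mem_insert_iff]
          constructor
          · rintro ⟨h1, h2⟩
            by_cases h3 : t = T
            · exact Or.inl h3
            · exact Or.inr ⟨by omega, h2⟩
          · rintro (h1 | ⟨h1, h2⟩)
            · subst h1
              exact ⟨by omega, h⟩
            · exact ⟨by omega, h2⟩
        · exact lt_irrefl _ h1.1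
      · rw [if_neg h, add_zero, turns, turns]
        congr 1
        ext t
        simp only [Set.mem_setOf_eq]
        constructor
        · rintro ⟨h1, h2⟩
          have h3 : t ≠ T := by
            rintro rfl
            exact h h2
          exact ⟨by omega, h2⟩
        · rintro ⟨h1, h2⟩
          exact ⟨by omega, h2⟩
    rw [key, ← ih, nz_succ]
    by_cases h : mv x T = 0
    · rw [if_pos h, List.append_nil, if_neg, add_zero]
      rintro ⟨s, hs, h1, h2⟩
      exact (mul_neg_iff_mv.mp h1).2.1 h
    · rw [if_neg h, changes_snoc]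
      congr 1
      apply if_congr _ rfl rfl
      constructor
      · rintro ⟨b, hb, hne⟩
        obtain ⟨s, hs, h1, h2, h3⟩ := (nz_last x T b).mp hb
        subst h1
        exact ⟨s, hs, mul_neg_iff_mv.mpr ⟨h2, h, hne⟩, fun u hu hu' => mv_eq_zero.mp (h3 u hu hu')⟩
      · rintro ⟨s, hs, h1, h2⟩
        obtain ⟨h3, h4, h5⟩ := mul_neg_iff_mv.mp h1
        exact ⟨mv x s, (nz_last x T _).mpr ⟨s, hs, rfl, h3, fun u hu hu' =>
          mv_eq_zero.mpr (h2 u hu hu')⟩, h5⟩

end Vale.Agent.P343.D3
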