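import Mathlib

/-!
# Two-way nondeterministic finite automata

Definitions used by the hand-ins for problem P343.
-/

namespace Vale.Agent.P343

/-- Tape symbols: the left endmarker, the letters of the alphabet `A`, the right endmarker. -/
inductive TapeSymbol (A : Type) : Type where
  | leftEnd : TapeSymbol A
  | letter (a : A) : TapeSymbol A
  | rightEnd : TapeSymbol A

/-- The content of cell `i` of the tape `⊢ w ⊣`: cell `0` holds the left endmarker, cells
`1, …, |w|` hold the letters of `w`, and the right endmarker follows. -/
def cell {A : Type} (w : List A) : ℕ → TapeSymbol A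
  | 0 => TapeSymbol.leftEnd
  | i + 1 =>
    match w[i]? with
    | some a => TapeSymbol.letter a
    | none => TapeSymbol.rightEnd

/-- A two-way nondeterministic finite automaton with alphabet `A` and state set `Q`.
A transition changes the state and moves the head by `-1`, `0` or `1`
(an element of `SignType`), never beyond an endmarker. -/
structure TwoNFA (A Q : Type) : Type where
  start : Q
  accepting : Set Q
  trans : Q → TapeSymbol A → Set (Q × SignType)
  not_beyond_left : ∀ p q, (q, -1) ∉ trans p TapeSymbol.leftEnd
  not_beyond_right : ∀ p q, (q, 1) ∉ trans p TapeSymbol.rightEnd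

namespace TwoNFA

variable {A Q : Type}

/-- `M.Computation w c ds c'`: on the tape `⊢ w ⊣` there is a finite computation of `M` from the
configuration `c = (state, head position)` to the configuration `c'`, whose successive head moves
are listed in `ds`. -/
inductive Computation (M : TwoNFA A Q) (w : List A) :
    Q × ℕ → List SignType → Q × ℕ → Prop where
  | refl (c : Q × ℕ) : Computation M w c [] c
  | step {p q : Q} {i j : ℕ} {d : SignType} {ds : List SignType} {c : Q × ℕ} :
      (q, d) ∈ M.trans p (cell w i) → (j : ℤ) = (i : ℤ) + (d : ℤ) →
      Computation M w (q, j) ds c → Computation M w (p, i) (d :: ds) c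

/-- There is a finite computation of `M` on the tape `⊢ w ⊣`, with head moves `ds`, that starts
in the start state on the left endmarker and reaches an accepting state. -/
def AcceptsWith (M : TwoNFA A Q) (w : List A) (ds : List SignType) : Prop :=
  ∃ q i, M.Computation w (M.start, 0) ds (q, i) ∧ q ∈ M.accepting

/-- The language recognized by `M`. -/
def language (M : TwoNFA A Q) : Set (List A) :=
  {w | ∃ ds, M.AcceptsWith w ds}

/-- `M` is one-way: it never moves left. -/
def OneWay (M : TwoNFA A Q) : Prop :=
  ∀ p s q, (q, -1) ∉ M.trans p s

end TwoNFA

/-- The number of indices at which a list changes its value. -/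
def changes : List SignType → ℕ
  | a :: b :: l => (if a = b then 0 else 1) + changes (b :: l)
  | _ => 0

/-- The number of head reversals in a computation with head moves `ds`: the number of changes of
direction, where stationary moves are ignored. -/
def reversals (ds : List SignType) : ℕ :=
  changes (ds.filter (fun d => d ≠ 0))

/-- `M` has few reversals: for some `r : ℕ → ℕ` with `r l = o(l)`, every word `w` recognized by
`M` is accepted by a computation with at most `r |w|` reversals. -/
def TwoNFA.FewReversals {A Q : Type} (M : TwoNFA A Q) : Prop :=
  ∃ r : ℕ → ℕ,
    Asymptotics.IsLittleO Filter.atTop (fun l : ℕ => (r l : ℝ)) (fun l : ℕ => (l : ℝ)) ∧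
    ∀ w ∈ M.language, ∃ ds, M.AcceptsWith w ds ∧ reversals ds ≤ r w.length

end Vale.Agent.P343
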