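import Vale.Agent.Lib.P343.Core

/-!
# The one-way automaton for the hard language and the few-reversal lower bound
-/

namespace Vale.Agent.P343

/-- The states of the one-way automaton. -/
inductive St (n : ℕ) : Type where
  | scan : St n
  | block : St n
  | fin : St n
  | pt (i : Fin n) : St n

/-- States as an iterated option type. -/
def St.equiv (n : ℕ) : St n ≃ Option (Option (Option (Fin n))) where
  toFun
    | .scan => none
    | .block => some none
    | .fin => some (some none)
    | .pt i => some (some (some i))
  invFun
    | none => .scan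
    | some none => .block
    | some (some none) => .fin
    | some (some (some i)) => .pt i
  left_inv a := by cases a <;> rfl
  right_inv a := by rcases a with _ | _ | _ | _ <;> rfl

instance (n : ℕ) : Fintype (St n) := Fintype.ofEquiv _ (St.equiv n).symm

theorem card_St (n : ℕ) : Fintype.card (St n) = n + 3 := by
  rw [Fintype.card_congr (St.equiv n)]
  simp

variable {n : ℕ}

/-- The transitions of the one-way automaton. -/
inductive Tr : St n → TapeSymbol (Letter n) → St n × SignType → Prop where
  | start : Tr St.scan TapeSymbol.leftEnd (St.scan, 1)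
  | scan (a : Letter n) : Tr St.scan (TapeSymbol.letter a) (St.scan, 1)
  | enter : Tr St.scan (TapeSymbol.letter Letter.sep) (St.block, 1)
  | choose (X : Finset (Fin n)) (i : Fin n) (hi : i ∈ X) :
      Tr St.block (TapeSymbol.letter (Letter.U X)) (St.pt i, 1)
  | check (Y : Finset (Fin n)) (i : Fin n) (hi : i ∈ Y) :
      Tr (St.pt i) (TapeSymbol.letter (Letter.V Y)) (St.block, 1)
  | accept : Tr St.block (TapeSymbol.letter Letter.sep) (St.fin, 1)

/-- The one-way automaton with `n + 3` states. -/
def auto (n : ℕ) : TwoNFA (Letter n) (St n) where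
  start := St.scan
  accepting := {St.fin}
  trans p s := {c | Tr p s c}
  not_beyond_left p q h := by
    have h' : Tr p TapeSymbol.leftEnd (q, -1) := h
    cases h'
  not_beyond_right p q h := by
    have h' : Tr p TapeSymbol.rightEnd (q, 1) := h
    cases h'

theorem auto_oneWay (n : ℕ) : (auto n).OneWay := by
  intro p s q h
  have h' : Tr p s (q, -1) := h
  cases h'

/-- What is known about a reachable configuration. -/
inductive Known (w : List (Letter n)) : St n × ℕ → Prop where
  | scan (i : ℕ) : Known w (St.scan, i)
  | block (p z r : List (Letter n)) (hz : Live z) (hw : w = p ++ Letter.sep :: (z ++ r)) :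
      Known w (St.block, p.length + 1 + z.length + 1)
  | pt (p z r : List (Letter n)) (X : Finset (Fin n)) (i : Fin n) (hi : i ∈ X) (hz : Live z)
      (hw : w = p ++ Letter.sep :: (z ++ Letter.U X :: r)) :
      Known w (St.pt i, p.length + 1 + z.length + 1 + 1)
  | fin (i : ℕ) (h : w ∈ Hard n) : Known w (St.fin, i)

theorem cell_eq_letter {A : Type} {w : List A} {i : ℕ} {a : A}
    (h : cell w (i + 1) = TapeSymbol.letter a) : w[i]? = some a := by
  simp only [cell] at h
  cases hb : w[i]? with
  | none => rw [hb] at h; cases h
  | some b => rw [hb] at h; injection h with h; rw [h]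

theorem cell_eq_letter' {A : Type} {w : List A} {i : ℕ} {a : A}
    (h : cell w i = TapeSymbol.letter a) : ∃ w1 w2, w = w1 ++ a :: w2 ∧ i = w1.length + 1 := by
  cases i with
  | zero => cases h
  | succ i =>
    have h' := cell_eq_letter h
    obtain ⟨hi, he⟩ := List.getElem?_eq_some_iff.mp h'
    refine ⟨w.take i, w.drop (i + 1), ?_, ?_⟩
    · rw [← he, ← List.drop_eq_getElem_cons hi, List.take_append_drop]
    · simp; omega

theorem append_cons_unique {A : Type} {a : A} {x y u v : List A} (hx : a ∉ x) (hy : a ∉ y)
    (h : x ++ a :: u = y ++ a :: v) : x = y := by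
  rcases List.append_eq_append_iff.mp h with ⟨c, hc1, hc2⟩ | ⟨c, hc1, hc2⟩
  · cases c with
    | nil => simpa using hc1.symm
    | cons b c =>
      exfalso
      simp only [List.cons_append, List.cons.injEq] at hc2
      apply hy
      rw [hc1, ← hc2.1]
      simp
  · cases c with
    | nil => simpa using hc1
    | cons b c =>
      exfalso
      simp only [List.cons_append, List.cons.injEq] at hc2
      apply hx
      rw [hc1, ← hc2.1]
      simp

theorem known_step {w : List (Letter n)} {c c' : St n × ℕ} (hk : Known w c)
    (hs : (auto n).Stp w c c') : Known w c' := by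
  obtain ⟨d, h, hd⟩ := hs
  obtain ⟨q, j⟩ := c'
  obtain ⟨p, i⟩ := c
  simp only at hd
  have h' : Tr p (cell w i) (q, d) := h
  generalize hc : cell w i = s at h'
  cases h' with
  | start => exact Known.scan _
  | scan a => exact Known.scan _
  | enter =>
    obtain ⟨w1, w2, hw, hi⟩ := cell_eq_letter' hc
    have hj : j = w1.length + 1 + ([] : List (Letter n)).length + 1 := by
      have : ((1 : SignType) : ℤ) = 1 := rfl
      rw [this] at hd
      simp; omega
    rw [hj]
    exact Known.block w1 [] w2 Live.nil hw
  | choose X k hk' =>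
    cases hk with
    | block p z r hz hw =>
      obtain ⟨w1, w2, hw', hi⟩ := cell_eq_letter' hc
      have e : (p ++ Letter.sep :: z) ++ r = w1 ++ Letter.U X :: w2 := by
        rw [← hw', hw]; simp
      obtain ⟨-, e2⟩ := List.append_inj e (by simp; omega)
      have hj : j = p.length + 1 + z.length + 1 + 1 := by
        have : ((1 : SignType) : ℤ) = 1 := rfl
        rw [this] at hd
        omega
      rw [hj]
      exact Known.pt p z w2 X k hk' hz (by rw [hw, e2])
  | check Y k hk' =>
    cases hk with
    | pt p z r X _ hX hz hw =>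
      obtain ⟨w1, w2, hw', hi⟩ := cell_eq_letter' hc
      have e : (p ++ Letter.sep :: (z ++ [Letter.U X])) ++ r = w1 ++ Letter.V Y :: w2 := by
        rw [← hw', hw]; simp
      obtain ⟨-, e2⟩ := List.append_inj e (by simp; omega)
      have hj : j = p.length + 1 + (z ++ [Letter.U X, Letter.V Y]).length + 1 := by
        have : ((1 : SignType) : ℤ) = 1 := rfl
        rw [this] at hd
        simp; omega
      rw [hj]
      exact Known.block p _ w2 (hz.append (Live.cons k hX hk' Live.nil)) (by rw [hw, e2]; simp)
  | accept =>
    cases hk with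
    | block p z r hz hw =>
      obtain ⟨w1, w2, hw', hi⟩ := cell_eq_letter' hc
      have e : (p ++ Letter.sep :: z) ++ r = w1 ++ Letter.sep :: w2 := by
        rw [← hw', hw]; simp
      obtain ⟨-, e2⟩ := List.append_inj e (by simp; omega)
      exact Known.fin _ ⟨p, z, w2, hz, by rw [hw, e2]⟩

theorem hard_of_mem {w : List (Letter n)} (h : w ∈ (auto n).language) : w ∈ Hard n := by
  rw [TwoNFA.mem_language_iff] at h
  obtain ⟨q, i, h, hq⟩ := h
  have hk : Known w (q, i) := by
    have h0 : Known w ((auto n).start, 0) := Known.scan 0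
    generalize (q, i) = c at h
    unfold TwoNFA.Reach at h
    induction h with
    | refl => exact h0
    | tail _ hs ih => exact known_step ih hs
  have hq' : q = St.fin := hq
  subst hq'
  cases hk with
  | fin _ h => exact h

theorem reach_block {z : List (Letter n)} (hz : Live z) : ∀ w1 w2 : List (Letter n),
    (auto n).Reach (w1 ++ z ++ w2) (St.block, w1.length + 1)
      (St.block, w1.length + z.length + 1) := by
  induction hz with
  | nil => intro w1 w2; exact Relation.ReflTransGen.refl
  | @cons X Y z i hX hY _ ih =>
    intro w1 w2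
    have c1 : cell (w1 ++ (Letter.U X :: Letter.V Y :: z) ++ w2) (w1.length + 1) =
        TapeSymbol.letter (Letter.U X) := by
      simpa using cell_append_cons w1 (Letter.U X) (Letter.V Y :: z ++ w2)
    have c2 : cell (w1 ++ (Letter.U X :: Letter.V Y :: z) ++ w2) (w1.length + 1 + 1) =
        TapeSymbol.letter (Letter.V Y) := by
      simpa using cell_append_cons (w1 ++ [Letter.U X]) (Letter.V Y) (z ++ w2)
    have s1 : (auto n).Stp (w1 ++ (Letter.U X :: Letter.V Y :: z) ++ w2)
        (St.block, w1.length + 1) (St.pt i, w1.length + 1 + 1) := by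
      apply TwoNFA.stp_right
      rw [c1]
      exact Tr.choose X i hX
    have s2 : (auto n).Stp (w1 ++ (Letter.U X :: Letter.V Y :: z) ++ w2)
        (St.pt i, w1.length + 1 + 1) (St.block, w1.length + 1 + 1 + 1) := by
      apply TwoNFA.stp_right
      rw [c2]
      exact Tr.check Y i hY
    have s3 := ih (w1 ++ [Letter.U X, Letter.V Y]) w2
    have e1 : w1 ++ [Letter.U X, Letter.V Y] ++ z ++ w2 =
        w1 ++ (Letter.U X :: Letter.V Y :: z) ++ w2 := by simp
    have e2 : (w1 ++ [Letter.U X, Letter.V Y]).length = w1.length + 1 + 1 := by simp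
    have e3 : w1.length + 1 + 1 + z.length + 1 =
        w1.length + (Letter.U X :: Letter.V Y :: z).length + 1 := by
      simp; ring
    rw [e1, e2, e3] at s3
    exact Relation.ReflTransGen.head s1 (Relation.ReflTransGen.head s2 s3)

theorem reach_scan (w : List (Letter n)) (i : ℕ) (hi : i ≤ w.length) :
    (auto n).Reach w (St.scan, 0) (St.scan, i + 1) := by
  induction i with
  | zero =>
    refine Relation.ReflTransGen.single ?_
    apply TwoNFA.stp_right
    exact Tr.start
  | succ i ih =>
    refine Relation.ReflTransGen.tail (ih (by omega)) ?_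
    apply TwoNFA.stp_right
    have hi' : i < w.length := by omega
    have : cell w (i + 1) = TapeSymbol.letter w[i] := by
      simp [cell, List.getElem?_eq_getElem hi']
    rw [this]
    exact Tr.scan _

theorem mem_of_hard {w : List (Letter n)} (h : w ∈ Hard n) : w ∈ (auto n).language := by
  obtain ⟨p, z, q, hz, rfl⟩ := h
  rw [TwoNFA.mem_language_iff]
  have s1 := reach_scan (p ++ Letter.sep :: (z ++ Letter.sep :: q)) p.length (by simp)
  have s2 : (auto n).Stp (p ++ Letter.sep :: (z ++ Letter.sep :: q))
      (St.scan, p.length + 1) (St.block, p.length + 1 + 1) := by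
    apply TwoNFA.stp_right
    rw [cell_append_cons]
    exact Tr.enter
  have s3 := reach_block hz (p ++ [Letter.sep]) (Letter.sep :: q)
  have e1 : p ++ [Letter.sep] ++ z ++ Letter.sep :: q =
      p ++ Letter.sep :: (z ++ Letter.sep :: q) := by simp
  have e2 : (p ++ [(Letter.sep : Letter n)]).length = p.length + 1 := by simp
  rw [e1, e2] at s3
  have s4 : (auto n).Stp (p ++ Letter.sep :: (z ++ Letter.sep :: q))
      (St.block, p.length + 1 + z.length + 1) (St.fin, p.length + 1 + z.length + 1 + 1) := by
    apply TwoNFA.stp_right
    have := cell_append_cons (p ++ Letter.sep :: z) Letter.sep q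
    have e3 : (p ++ Letter.sep :: z).length + 1 = p.length + 1 + z.length + 1 := by
      simp; ring
    rw [e3] at this
    have e4 : p ++ Letter.sep :: z ++ Letter.sep :: q =
      p ++ Letter.sep :: (z ++ Letter.sep :: q) := by simp
    rw [e4] at this
    rw [this]
    exact Tr.accept
  exact ⟨St.fin, _, ((s1.tail s2).trans s3).tail s4, rfl⟩

theorem auto_language (n : ℕ) : (auto n).language = Hard n :=
  Set.Subset.antisymm (fun _ h => hard_of_mem h) (fun _ h => mem_of_hard h)

/-- The word `(# x)^k # v`. -/
def rep (x v : List (Letter n)) (k : ℕ) : List (Letter n) :=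
  (List.replicate k (Letter.sep :: x)).flatten ++ Letter.sep :: v

theorem rep_zero (x v : List (Letter n)) : rep x v 0 = Letter.sep :: v := rfl

theorem rep_succ (x v : List (Letter n)) (k : ℕ) :
    rep x v (k + 1) = Letter.sep :: (x ++ rep x v k) := by
  simp [rep, List.replicate_succ]

theorem rep_length (x v : List (Letter n)) (k : ℕ) :
    (rep x v k).length = k * (x.length + 1) + 1 + v.length := by
  simp [rep]; ring

theorem rep_eq_cons (x v : List (Letter n)) (k : ℕ) : ∃ r, rep x v k = Letter.sep :: r := by
  cases k with
  | zero => exact ⟨v, rfl⟩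
  | succ k => exact ⟨_, rep_succ x v k⟩

theorem rep_split (x v : List (Letter n)) (j k : ℕ) :
    rep x v (j + 1 + k) = (rep x [] j ++ x) ++ rep x v k := by
  induction j with
  | zero => simp [rep_zero, Nat.add_comm 1 k, rep_succ]
  | succ j ih =>
    have e : j + 1 + 1 + k = (j + 1 + k) + 1 := by ring
    rw [e, rep_succ, ih, rep_succ]
    simp

theorem rep_block {x v : List (Letter n)} (hx : Letter.sep ∉ x) (hv : Letter.sep ∉ v) (k : ℕ) :
    ∀ p z q : List (Letter n), Letter.sep ∉ z →
      rep x v k = p ++ Letter.sep :: (z ++ Letter.sep :: q) → z = x := by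
  induction k with
  | zero =>
    intro p z q hz h
    exfalso
    apply hv
    rw [rep_zero] at h
    cases p with
    | nil =>
      simp only [List.nil_append, List.cons.injEq, true_and] at h
      rw [h]
      simp
    | cons a p =>
      simp only [List.cons_append, List.cons.injEq] at h
      rw [h.2]
      simp
  | succ k ih =>
    intro p z q hz h
    rw [rep_succ] at h
    obtain ⟨r, hr⟩ := rep_eq_cons x v k
    cases p with
    | nil =>
      simp only [List.nil_append, List.cons.injEq, true_and] at h
      rw [hr] at h
      exact append_cons_unique hz hx h.symm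
    | cons a p =>
      simp only [List.cons_append, List.cons.injEq] at h
      obtain ⟨-, h⟩ := h
      rcases List.append_eq_append_iff.mp h with ⟨c, hc1, hc2⟩ | ⟨c, hc1, hc2⟩
      · exact ih c z q hz hc2
      · cases c with
        | nil =>
          refine ih [] z q hz ?_
          simpa using hc2.symm
        | cons b c =>
          exfalso
          simp only [List.cons_append, List.cons.injEq] at hc2
          apply hx
          rw [hc1, ← hc2.1]
          simp

theorem rep_not_hard {x v : List (Letter n)} (hx : Letter.sep ∉ x) (hv : Letter.sep ∉ v)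
    (hd : ¬ Live x) (k : ℕ) : rep x v k ∉ Hard n := by
  rintro ⟨p, z, q, hz, h⟩
  have := rep_block hx hv k p z q hz.no_sep h
  rw [this] at hz
  exact hd hz

/-- If the straight crossings of a dead block `x` are also straight crossings of a live block
`z`, then every accepting computation on `(# x)^k # v` has at least `k - 1` reversals. -/
theorem many_reversals {Q : Type} {M : TwoNFA (Letter n) Q}
    (hL : M.language = (auto n).languageᶜ) {x z : List (Letter n)} (hx0 : x ≠ [])
    (hz : Live z) (hal : ∀ p q, M.al x p q → M.al z p q)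
    (hbe : ∀ p q, M.be x p q → M.be z p q) (v : List (Letter n)) (k : ℕ)
    {ds : List SignType} (hacc : M.AcceptsWith (rep x v k) ds) : k ≤ reversals ds + 1 := by
  classical
  by_contra hlt
  push Not at hlt
  obtain ⟨q, i, hcomp, hq⟩ := hacc
  set s := x.length + 1 with hs
  have hspos : 0 < s := by omega
  obtain ⟨V, hV, d', hd'⟩ := hcomp.exists_reversal_cells true
  have hch : changes (TwoNFA.sgn true :: ds.filter (fun e => e ≠ 0)) = reversals ds := by
    have := hcomp.changes_eq rfl
    have e : TwoNFA.sgn true = 1 := rfl
    rw [e, this]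
    rfl
  -- a block without reversals
  let W : Finset ℕ := insert i V
  have hWc : W.card < k := by
    have := Finset.card_insert_le i V
    simp only [W]
    omega
  obtain ⟨j, hj, hjW⟩ : ∃ j ∈ Finset.range k, j ∉ W.image (fun v => (v - 2) / s) := by
    apply Finset.exists_mem_notMem_of_card_lt_card
    calc _ ≤ W.card := Finset.card_image_le
      _ < k := hWc
      _ = _ := (Finset.card_range k).symm
  rw [Finset.mem_range] at hj
  have hsplit : rep x v k = (rep x [] j ++ x) ++ rep x v (k - 1 - j) := by
    have e : k = j + 1 + (k - 1 - j) := by omega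
    conv_lhs => rw [e]
    rw [rep_split]
  have hlen : (rep x ([] : List (Letter n)) j).length = j * s + 1 := rep_length x [] j
  have hout : ∀ v ∈ W, ¬ ((rep x ([] : List (Letter n)) j).length < v ∧
      v ≤ (rep x ([] : List (Letter n)) j).length + x.length) := by
    rintro v hv ⟨h1, h2⟩
    apply hjW
    refine Finset.mem_image.mpr ⟨v, hv, ?_⟩
    rw [hlen] at h1 h2
    have e : v - 2 = (v - 2 - j * s) + s * j := by
      have := Nat.mul_comm s j
      omega
    rw [e, Nat.add_mul_div_left _ _ hspos, Nat.div_eq_of_lt (by omega)]
    omega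
  have hpath := hd' {v | (rep x ([] : List (Letter n)) j).length < v ∧
      v ≤ (rep x ([] : List (Letter n)) j).length + x.length}
    (fun v hv => hout v (Finset.mem_insert_of_mem hv))
  rw [hsplit] at hpath
  have hacc := TwoNFA.replace hx0 hal hbe hpath (hout i (Finset.mem_insert_self _ _)) hq
  rw [hL, auto_language] at hacc
  apply hacc
  obtain ⟨r', hr'⟩ := rep_eq_cons x v (k - 1 - j)
  refine ⟨(List.replicate j (Letter.sep :: x)).flatten, z, r', hz, ?_⟩
  rw [hr']
  simp [rep]

/-- The tradeoff: a small automaton for the complement must make linearly many reversals. -/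
theorem tradeoff {Q : Type} [Fintype Q] (M : TwoNFA (Letter n) Q)
    (hL : M.language = (auto n).languageᶜ) (hQ : 2 * Fintype.card Q ^ 6 < 2 ^ n) :
    ∃ c : ℝ, 0 < c ∧ ∀ᶠ l : ℕ in Filter.atTop, ∃ w : List (Letter n), w.length = l ∧
      w ∈ M.language ∧ ∀ ds, M.AcceptsWith w ds → c * l ≤ reversals ds := by
  classical
  by_contra hcon
  refine absurd hQ (not_lt.mpr (core M ?_))
  intro x z hx0 hx hxd hz hal hbe
  apply hcon
  set s := x.length + 1 with hs
  have hspos : 0 < s := by omega
  refine ⟨1 / (4 * s), by positivity, ?_⟩
  rw [Filter.eventually_atTop]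
  refine ⟨8 * s, fun l hl => ?_⟩
  set k := (l - 1) / s with hk
  have hks : k * s ≤ l - 1 := Nat.div_mul_le_self _ _
  have hks' : l - 1 < k * s + s := Nat.lt_div_mul_add hspos
  have hk7 : 7 ≤ k := by
    by_contra h
    push Not at h
    have : k * s ≤ 6 * s := Nat.mul_le_mul_right s (by omega)
    omega
  let v : List (Letter n) := List.replicate (l - 1 - k * s) (Letter.U ∅)
  have hv : Letter.sep ∉ v := by
    intro h
    have := List.eq_of_mem_replicate h
    cases this
  refine ⟨rep x v k, ?_, ?_, ?_⟩
  · rw [rep_length, ← hs]
    simp only [v, List.length_replicate]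
    omega
  · rw [hL, auto_language]
    exact rep_not_hard hx hv hxd k
  · intro ds hds
    have h1 := many_reversals hL hx0 hz hal hbe v k hds
    have h2 : l ≤ (k + 1) * s := by
      have : (k + 1) * s = k * s + s := by ring
      omega
    have h3 : k + 1 ≤ 4 * reversals ds := by omega
    have h4 : (l : ℝ) ≤ (k + 1) * s := by exact_mod_cast h2
    have h5 : ((k : ℝ) + 1) ≤ 4 * reversals ds := by exact_mod_cast h3
    have hs0 : (0 : ℝ) < s := by exact_mod_cast hspos
    rw [div_mul_eq_mul_div, one_mul, div_le_iff₀ (by positivity)]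
    calc (l : ℝ) ≤ (k + 1) * s := h4
      _ ≤ (4 * reversals ds) * s := mul_le_mul_of_nonneg_right h5 hs0.le
      _ = reversals ds * (4 * s) := by ring

/-- Automata with few reversals for the complement need exponentially many states. -/
theorem lower_bound {Q : Type} [Fintype Q] (M : TwoNFA (Letter n) Q) (hM : M.FewReversals)
    (hL : M.language = (auto n).languageᶜ) : 2 ^ n ≤ 2 * Fintype.card Q ^ 6 := by
  by_contra hcon
  push Not at hcon
  obtain ⟨c, hc, hev⟩ := tradeoff M hL hcon
  obtain ⟨r, hr, hM⟩ := hM
  have h2 := hr.def (half_pos hc)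
  obtain ⟨l, ⟨hl1, hl2⟩, hl3⟩ := ((hev.and h2).and (Filter.eventually_gt_atTop 0)).exists
  obtain ⟨w, hwl, hw, hds⟩ := hl1
  obtain ⟨ds, hacc, hrev⟩ := hM w hw
  have h3 := hds ds hacc
  simp only [Real.norm_natCast] at hl2
  rw [hwl] at hrev
  have h4 : (reversals ds : ℝ) ≤ r l := by exact_mod_cast hrev
  have h5 : (0 : ℝ) < l := by exact_mod_cast hl3
  nlinarith [mul_pos hc h5]

end Vale.Agent.P343
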