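import Vale.Agent.Lib.P343.Cross

/-!
# Two-way automata over a one-letter alphabet: pumping
-/

namespace Vale.Agent.P343

namespace Unary

variable {Q : Type}

/-- One step on the doubly infinite tape with the letter `a` in every cell, for the transitions
`tr` on `a`. -/
def ZStep (tr : Q → Set (Q × SignType)) (c c' : Q × ℤ) : Prop :=
  ∃ d : SignType, (c'.1, d) ∈ tr c.1 ∧ c'.2 = c.2 + (d : ℤ)

/-- Walks on the doubly infinite tape all of whose configurations, except possibly the last one,
have a position in `[-k, 0]`. -/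
inductive ZWalk (tr : Q → Set (Q × SignType)) (k : ℕ) : Q × ℤ → Q × ℤ → Prop where
  | refl (c : Q × ℤ) : ZWalk tr k c c
  | tail {c c' c'' : Q × ℤ} (h : ZWalk tr k c c') (h1 : -(k : ℤ) ≤ c'.2) (h2 : c'.2 ≤ 0)
      (hs : ZStep tr c' c'') : ZWalk tr k c c''

theorem ZWalk.mono {tr : Q → Set (Q × SignType)} {k l : ℕ} (hkl : k ≤ l) {c c' : Q × ℤ}
    (h : ZWalk tr k c c') : ZWalk tr l c c' := by
  induction h with
  | refl => exact ZWalk.refl _
  | tail _ h1 h2 hs ih => exact ZWalk.tail ih (by omega) h2 hs

/-- One record: from position `0` to the first visit of position `1`, using at most `k` cells to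
the left of `0`. -/
def Rec (tr : Q → Set (Q × SignType)) (k : ℕ) (s s' : Q) : Prop := ZWalk tr k (s, 0) (s', 1)

/-- `Chain tr k l s s'`: a sequence of records with windows `k, k + 1, …, k + l - 1`. -/
inductive Chain (tr : Q → Set (Q × SignType)) (k : ℕ) (s : Q) : ℕ → Q → Prop where
  | nil : Chain tr k s 0 s
  | snoc {l : ℕ} {s' s'' : Q} (h : Chain tr k s l s') (hr : Rec tr (k + l) s' s'') :
      Chain tr k s (l + 1) s''

theorem Chain.mono {tr : Q → Set (Q × SignType)} {k k' l : ℕ} (hk : k ≤ k') {s s' : Q}
    (h : Chain tr k s l s') : Chain tr k' s l s' := by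
  induction h with
  | nil => exact Chain.nil
  | snoc _ hr ih => exact Chain.snoc ih (ZWalk.mono (by omega) hr)

theorem Chain.append {tr : Q → Set (Q × SignType)} {k l : ℕ} {s s' : Q}
    (h : Chain tr k s l s') {l' : ℕ} {s'' : Q} (h' : Chain tr (k + l) s' l' s'') :
    Chain tr k s (l + l') s'' := by
  induction h' with
  | nil => exact h
  | snoc _ hr ih =>
    have := Chain.snoc ih (by rwa [← add_assoc])
    rwa [← add_assoc]

/-- States visited by a chain. -/
theorem Chain.exists_states {tr : Q → Set (Q × SignType)} {k l : ℕ} {s s' : Q}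
    (h : Chain tr k s l s') : ∃ f : ℕ → Q, f 0 = s ∧ f l = s' ∧
      ∀ i j, i ≤ j → j ≤ l → Chain tr (k + i) (f i) (j - i) (f j) := by
  classical
  induction h with
  | nil =>
    refine ⟨fun _ => s, rfl, rfl, fun i j hij hj => ?_⟩
    have : j - i = 0 := by omega
    rw [this]
    exact Chain.nil
  | @snoc l s' s'' h hr ih =>
    obtain ⟨f, hf0, hfl, hf⟩ := ih
    refine ⟨fun i => if i ≤ l then f i else s'', by simp [hf0], by simp, fun i j hij hj => ?_⟩
    rcases Nat.lt_or_ge l j with hlj | hlj
    · obtain rfl : j = l + 1 := by omega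
      by_cases hi : i ≤ l
      · have h1 := hf i l hi le_rfl
        simp only [hi, if_true]
        have e : l + 1 - i = (l - i) + 1 := by omega
        rw [e]
        have h2 : ¬ (l + 1 ≤ l) := by omega
        simp only [h2, if_false]
        refine Chain.snoc h1 ?_
        rw [hfl]
        have e2 : k + i + (l - i) = k + l := by omega
        rw [e2]
        exact hr
      · have e : l + 1 - i = 0 := by omega
        rw [e]
        have h2 : ¬ (l + 1 ≤ l) := by omega
        simp only [hi, h2, if_false]
        exact Chain.nil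
    · have hi : i ≤ l := by omega
      simp only [hi, hlj, if_true]
      exact hf i j hij hlj

theorem Chain.loop {tr : Q → Set (Q × SignType)} {k d : ℕ} {s : Q}
    (h : Chain tr k s d s) (e : ℕ) : Chain tr k s (d * e) s := by
  induction e with
  | zero => exact Chain.nil
  | succ e ih =>
    have := Chain.append ih (Chain.mono (Nat.le_add_right k (d * e)) h)
    rwa [Nat.mul_succ]

/-- Pumping for chains. -/
theorem Chain.pump [Fintype Q] {tr : Q → Set (Q × SignType)} {k l : ℕ} {s s' : Q}
    (h : Chain tr k s l s') (hl : Fintype.card Q ≤ l) :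
    Chain tr k s (l + (Fintype.card Q).factorial) s' := by
  classical
  obtain ⟨f, hf0, hfl, hf⟩ := h.exists_states
  obtain ⟨i, j, hij, hj, he⟩ : ∃ i j, i < j ∧ j ≤ Fintype.card Q ∧ f i = f j := by
    obtain ⟨i, j, hne, he⟩ := Fintype.exists_ne_map_eq_of_card_lt
      (fun i : Fin (Fintype.card Q + 1) => f i) (by simp)
    rcases lt_or_gt_of_ne hne with h | h
    · exact ⟨i, j, h, by omega, he⟩
    · exact ⟨j, i, h, by omega, he.symm⟩
  obtain ⟨e, hfac⟩ : (j - i) ∣ (Fintype.card Q).factorial :=
    Nat.dvd_factorial (by omega) (by omega)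
  have h1 := hf 0 i (Nat.zero_le _) (by omega)
  have h2 := hf i j hij.le (by omega)
  have h3 := hf i l (by omega) le_rfl
  rw [← he] at h2
  rw [hf0] at h1
  rw [hfl] at h3
  simp only [add_zero, Nat.sub_zero] at h1
  have h4 := h1.append (Chain.loop h2 e)
  have h5 := h4.append (Chain.mono (by omega) h3)
  have e2 : i + (j - i) * e + (l - i) = l + (Fintype.card Q).factorial := by
    rw [hfac]; omega
  rwa [e2] at h5

end Unary

end Vale.Agent.P343
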