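import Vale.Agent.Lib.P343.Unary

/-!
# Pumping unary words accepted by a two-way automaton
-/

namespace Vale.Agent.P343

namespace Unary

variable {Q : Type} (M : TwoNFA Unit Q)

/-- Transitions on the letter. -/
def trR : Q → Set (Q × SignType) := fun q => M.trans q (TapeSymbol.letter ())

/-- Mirrored transitions on the letter. -/
def trL : Q → Set (Q × SignType) := fun q => {c | (c.1, -c.2) ∈ M.trans q (TapeSymbol.letter ())}

/-- The word of length `N`. -/
def word (N : ℕ) : List Unit := List.replicate N ()

theorem cell_word {N i : ℕ} (h1 : 1 ≤ i) (h2 : i ≤ N) :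
    cell (word N) i = TapeSymbol.letter () := by
  obtain ⟨i, rfl⟩ : ∃ k, i = k + 1 := ⟨i - 1, by omega⟩
  have : i < N := by omega
  simp [cell, word, this]

theorem cell_word_end {N i : ℕ} (h : N + 1 ≤ i) : cell (word N) i = TapeSymbol.rightEnd := by
  obtain ⟨i, rfl⟩ : ∃ k, i = k + 1 := ⟨i - 1, by omega⟩
  have : ¬ (i < N) := by omega
  simp [cell, word, this]

variable {M}

theorem embR {N k b : ℕ} (hk : k + 1 ≤ b) (hb : b ≤ N) {s : Q} {c : Q × ℤ}
    (h : ZWalk (trR M) k (s, 0) c) :
    ∀ j : ℕ, (j : ℤ) = b + c.2 → M.Reach (word N) (s, b) (c.1, j) := by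
  induction h with
  | refl =>
    intro j hj
    simp only [add_zero, Nat.cast_inj] at hj
    subst hj
    exact Relation.ReflTransGen.refl
  | @tail c' c'' _ h1 h2 hs ih =>
    intro j hj
    obtain ⟨d, hd1, hd2⟩ := hs
    obtain ⟨j', hj'⟩ : ∃ j' : ℕ, (j' : ℤ) = b + c'.2 := ⟨((b : ℤ) + c'.2).toNat, by omega⟩
    refine Relation.ReflTransGen.tail (ih j' hj') ⟨d, ?_, ?_⟩
    · simp only
      rw [cell_word (by omega) (by omega)]
      exact hd1
    · simp only
      omega

theorem embL {N k b : ℕ} (hb : 1 ≤ b) (hk : b + k ≤ N) {s : Q} {c : Q × ℤ}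
    (h : ZWalk (trL M) k (s, 0) c) :
    ∀ j : ℕ, (j : ℤ) = b - c.2 → M.Reach (word N) (s, b) (c.1, j) := by
  induction h with
  | refl =>
    intro j hj
    simp only [sub_zero, Nat.cast_inj] at hj
    subst hj
    exact Relation.ReflTransGen.refl
  | @tail c' c'' _ h1 h2 hs ih =>
    intro j hj
    obtain ⟨d, hd1, hd2⟩ := hs
    obtain ⟨j', hj'⟩ : ∃ j' : ℕ, (j' : ℤ) = b - c'.2 := ⟨((b : ℤ) - c'.2).toNat, by omega⟩
    refine Relation.ReflTransGen.tail (ih j' hj') ⟨-d, ?_, ?_⟩
    · simp only
      rw [cell_word (by omega) (by omega)]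
      exact hd1
    · simp only
      have : ((-d : SignType) : ℤ) = -(d : ℤ) := by
        rcases d with _ | _ | _ <;> rfl
      rw [this]
      omega

theorem chain_embR {N : ℕ} {p s : Q} {l : ℕ} (h : Chain (trR M) 0 p l s) (hl : l ≤ N) :
    M.Reach (word N) (p, 1) (s, l + 1) := by
  induction h with
  | nil => exact Relation.ReflTransGen.refl
  | @snoc l s' s'' _ hr ih =>
    rw [zero_add] at hr
    refine Relation.ReflTransGen.trans (ih (by omega)) ?_
    exact embR (by omega) (by omega) hr (l + 1 + 1) (by push_cast; ring)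

theorem chain_embL {N : ℕ} {p s : Q} {l : ℕ} (h : Chain (trL M) 0 p l s) (hl : l ≤ N) :
    M.Reach (word N) (p, N) (s, N - l) := by
  induction h with
  | nil => exact Relation.ReflTransGen.refl
  | @snoc l s' s'' _ hr ih =>
    rw [zero_add] at hr
    refine Relation.ReflTransGen.trans (ih (by omega)) ?_
    exact embL (by omega) (by omega) hr (N - (l + 1)) (by omega)

variable (M)

/-- The invariant: what a configuration reachable on the tape of length `N` yields on the tape
of length `N + P`. -/
inductive PInv (N P : ℕ) : Q × ℕ → Prop where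
  | zero {q : Q} (h : M.Reach (word (N + P)) (M.start, 0) (q, 0)) : PInv N P (q, 0)
  | last {q : Q} {i : ℕ} (hi : i = N + 1)
      (h : M.Reach (word (N + P)) (M.start, 0) (q, N + P + 1)) : PInv N P (q, i)
  | fromLeft {q : Q} {i : ℕ} (h1 : 1 ≤ i)
      (h : M.Reach (word (N + P)) (M.start, 0) (q, i)) (p : Q) (l : ℕ) (s : Q)
      (hp : M.Reach (word (N + P)) (M.start, 0) (p, 1)) (hc : Chain (trR M) 0 p l s)
      (hl : l + 1 ≤ N) (hil : i ≤ l + 1)
      (hw : ZWalk (trR M) l (s, 0) (q, (i : ℤ) - (l + 1))) : PInv N P (q, i)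
  | fromRight {q : Q} {i : ℕ} (h1 : i ≤ N)
      (h : M.Reach (word (N + P)) (M.start, 0) (q, i + P)) (p : Q) (l : ℕ) (s : Q)
      (hp : M.Reach (word (N + P)) (M.start, 0) (p, N + P)) (hc : Chain (trL M) 0 p l s)
      (hl : l + 1 ≤ N) (hil : N ≤ i + l)
      (hw : ZWalk (trL M) l (s, 0) (q, (N : ℤ) - l - i)) : PInv N P (q, i)

variable {M}

theorem PInv.step [Fintype Q] {N P : ℕ} (hP : P = (Fintype.card Q).factorial)
    (hN : Fintype.card Q ≤ N) {c c' : Q × ℕ} (hI : PInv M N P c) (hs : M.Stp (word N) c c') :
    PInv M N P c' := by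
  obtain ⟨d, hd1, hd2⟩ := hs
  obtain ⟨q', i'⟩ := c'
  have hcard : 1 ≤ Fintype.card Q := Fintype.card_pos_iff.mpr ⟨M.start⟩
  cases hI with
  | @zero q h =>
    simp only at hd1 hd2
    have hstep : M.Stp (word (N + P)) (q, 0) (q', i') := ⟨d, hd1, hd2⟩
    rcases d with _ | _ | _
    · have : ((SignType.zero : SignType) : ℤ) = 0 := rfl
      rw [this] at hd2
      obtain rfl : i' = 0 := by omega
      exact PInv.zero (h.tail hstep)
    · exact absurd hd1 (M.not_beyond_left _ _)
    · have : ((SignType.pos : SignType) : ℤ) = 1 := rfl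
      rw [this] at hd2
      obtain rfl : i' = 1 := by omega
      have h' : M.Reach (word (N + P)) (M.start, 0) (q', 1) := h.tail hstep
      refine PInv.fromLeft le_rfl h' q' 0 q' h' Chain.nil (by omega) (by omega) ?_
      simpa using ZWalk.refl (tr := trR M) (k := 0) (q', 0)
  | @last q i hi h =>
    subst hi
    simp only at hd1 hd2
    have hce : cell (word N) (N + 1) = cell (word (N + P)) (N + P + 1) := by
      rw [cell_word_end (by omega), cell_word_end (by omega)]
    rw [hce] at hd1
    rcases d with _ | _ | _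
    · have : ((SignType.zero : SignType) : ℤ) = 0 := rfl
      rw [this] at hd2
      exact PInv.last (by omega) (h.tail (M.stp_stay hd1))
    · have : ((SignType.neg : SignType) : ℤ) = -1 := rfl
      rw [this] at hd2
      obtain rfl : i' = N := by omega
      have h' : M.Reach (word (i' + P)) (M.start, 0) (q', i' + P) := h.tail (M.stp_left hd1)
      refine PInv.fromRight le_rfl h' q' 0 q' h' Chain.nil (by omega) (by omega) ?_
      simpa using ZWalk.refl (tr := trL M) (k := 0) (q', 0)
    · rw [cell_word_end (by omega)] at hd1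
      exact absurd hd1 (M.not_beyond_right _ _)
  | @fromLeft q i h1 h p l s hp hc hl hil hw =>
    simp only at hd1 hd2
    rw [cell_word h1 (by omega)] at hd1
    have hstep : M.Stp (word (N + P)) (q, i) (q', i') :=
      ⟨d, by simp only; rw [cell_word h1 (by omega)]; exact hd1, hd2⟩
    have h' := Relation.ReflTransGen.tail h hstep
    have hd : -1 ≤ (d : ℤ) ∧ (d : ℤ) ≤ 1 := by rcases d with _ | _ | _ <;> decide
    have hw' : ZWalk (trR M) l (s, 0) (q', (i' : ℤ) - (l + 1)) :=
      ZWalk.tail hw (by simp only; omega) (by simp only; omega) ⟨d, hd1, by simp only; omega⟩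
    by_cases h0 : i' = 0
    · subst h0
      exact PInv.zero h'
    · by_cases h2 : i' ≤ l + 1
      · exact PInv.fromLeft (by omega) h' p l s hp hc hl h2 hw'
      · obtain rfl : i' = l + 2 := by omega
        have hr : Rec (trR M) (0 + l) s q' := by
          rw [zero_add]
          have e : ((l + 2 : ℕ) : ℤ) - (l + 1) = 1 := by push_cast; ring
          rw [e] at hw'
          exact hw'
        have hc' := Chain.snoc hc hr
        by_cases h3 : l + 2 ≤ N
        · refine PInv.fromLeft (by omega) h' p (l + 1) q' hp hc' (by omega) (by omega) ?_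
          have e : ((l + 2 : ℕ) : ℤ) - (((l + 1 : ℕ) : ℤ) + 1) = 0 := by push_cast; ring
          rw [e]
          exact ZWalk.refl _
        · obtain rfl : N = l + 1 := by omega
          refine PInv.last rfl ?_
          have h4 := Chain.pump hc' hN
          rw [← hP] at h4
          exact Relation.ReflTransGen.trans hp (chain_embR h4 le_rfl)
  | @fromRight q i h1 h p l s hp hc hl hil hw =>
    simp only at hd1 hd2
    have hi1 : 1 ≤ i := by omega
    rw [cell_word hi1 (by omega)] at hd1
    have hd : -1 ≤ (d : ℤ) ∧ (d : ℤ) ≤ 1 := by rcases d with _ | _ | _ <;> decide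
    have hstep : M.Stp (word (N + P)) (q, i + P) (q', i' + P) :=
      ⟨d, by simp only; rw [cell_word (by omega) (by omega)]; exact hd1,
        by simp only; push_cast; omega⟩
    have h' := Relation.ReflTransGen.tail h hstep
    have hw' : ZWalk (trL M) l (s, 0) (q', (N : ℤ) - l - i') := by
      refine ZWalk.tail hw (by simp only; omega) (by simp only; omega) ⟨-d, ?_, ?_⟩
      · simp only [trL, Set.mem_ofPred_eq, neg_neg]
        exact hd1
      · simp only
        have : ((-d : SignType) : ℤ) = -(d : ℤ) := by
          rcases d with _ | _ | _ <;> rfl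
        rw [this]
        omega
    by_cases h0 : i' = N + 1
    · subst h0
      refine PInv.last rfl ?_
      have e : N + 1 + P = N + P + 1 := by ring
      rw [e] at h'
      exact h'
    · by_cases h2 : N ≤ i' + l
      · exact PInv.fromRight (by omega) h' p l s hp hc hl h2 hw'
      · have hi' : i' + (l + 1) = N := by omega
        have hr : Rec (trL M) (0 + l) s q' := by
          rw [zero_add]
          have e : (N : ℤ) - l - i' = 1 := by omega
          rw [e] at hw'
          exact hw'
        have hc' := Chain.snoc hc hr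
        by_cases h3 : l + 2 ≤ N
        · refine PInv.fromRight (by omega) h' p (l + 1) q' hp hc' (by omega) (by omega) ?_
          have e : (N : ℤ) - ((l + 1 : ℕ) : ℤ) - i' = 0 := by push_cast; omega
          rw [e]
          exact ZWalk.refl _
        · obtain rfl : i' = 0 := by omega
          obtain rfl : N = l + 1 := by omega
          refine PInv.zero ?_
          have h4 := Chain.pump hc' hN
          rw [← hP] at h4
          have h5 := chain_embL h4 le_rfl
          rw [Nat.sub_self] at h5
          exact Relation.ReflTransGen.trans hp h5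

/-- Pumping: if a two-way nondeterministic automaton with `m` states accepts the unary word of
length `N ≥ m`, then it accepts the unary word of length `N + m!`. -/
theorem pumping [Fintype Q] {N : ℕ} (hN : Fintype.card Q ≤ N) (h : word N ∈ M.language) :
    word (N + (Fintype.card Q).factorial) ∈ M.language := by
  rw [TwoNFA.mem_language_iff] at h ⊢
  obtain ⟨q, i, h, hq⟩ := h
  have hI : PInv M N (Fintype.card Q).factorial (q, i) := by
    have h0 : PInv M N (Fintype.card Q).factorial (M.start, 0) :=
      PInv.zero Relation.ReflTransGen.refl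
    unfold TwoNFA.Reach at h
    generalize (q, i) = c at h
    induction h with
    | refl => exact h0
    | tail _ hs ih => exact ih.step rfl hN hs
  clear h
  cases hI with
  | zero h2 => exact ⟨_, _, h2, hq⟩
  | last _ h2 => exact ⟨_, _, h2, hq⟩
  | fromLeft _ h2 => exact ⟨_, _, h2, hq⟩
  | fromRight _ h2 => exact ⟨_, _, h2, hq⟩

end Unary

end Vale.Agent.P343
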